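import Vale.Agent.P304.Defs

/-! Basic facts on priors. -/

namespace Vale.Agent.P304
open Finset
open scoped Classical

theorem ind_nonneg (p : Prop) : 0 ≤ ind p := by unfold ind; split_ifs <;> norm_num
theorem ind_le_one (p : Prop) : ind p ≤ 1 := by unfold ind; split_ifs <;> norm_num
theorem ind_pos {p : Prop} (h : p) : ind p = 1 := if_pos h
theorem ind_neg {p : Prop} (h : ¬ p) : ind p = 0 := if_neg h
theorem ind_mono {p q : Prop} (h : p → q) : ind p ≤ ind q := by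
  by_cases hp : p
  · rw [ind_pos hp, ind_pos (h hp)]
  · rw [ind_neg hp]; exact ind_nonneg _

theorem log_ge {k : ℕ} (hk : 2 ≤ k) : 69 / 100 ≤ Real.log k := by
  have : (2 : ℝ) ≤ k := by exact_mod_cast hk
  linarith [Real.log_le_log two_pos this, Real.log_two_gt_d9]

theorem dep_le {k : ℕ} (hk : 2 ≤ k) : 2 * (Dep k : ℝ) + 2 ≤ 32 * Real.log k := by
  have h1 := log_ge hk
  have h2 : ((2 : ℝ)) ^ Nat.log 2 k ≤ k := by exact_mod_cast Nat.pow_log_le_self 2 (by omega)
  have h3 := Real.log_le_log (by positivity) h2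
  rw [Real.log_pow] at h3
  have h4 := Real.log_two_gt_d9
  have h5 : (0 : ℝ) ≤ Nat.log 2 k := by positivity
  rw [Dep]; push_cast
  nlinarith

theorem dep_pow {k : ℕ} : (6 / 7 : ℝ) ^ Dep k * k < 1 := by
  have h2 : (k : ℝ) < 2 ^ (Nat.log 2 k + 1) := by
    exact_mod_cast Nat.lt_pow_succ_log_self one_lt_two k
  rw [Dep, pow_mul]
  have h3 : ((6 / 7 : ℝ) ^ 5) ^ (Nat.log 2 k + 1) ≤ (1 / 2) ^ (Nat.log 2 k + 1) :=
    pow_le_pow_left₀ (by positivity) (by norm_num) _
  calc _ ≤ (1 / 2) ^ (Nat.log 2 k + 1) * (k : ℝ) := by gcongr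
    _ < (1 / 2) ^ (Nat.log 2 k + 1) * 2 ^ (Nat.log 2 k + 1) := by gcongr
    _ = 1 := by rw [← mul_pow]; norm_num

theorem Scale.sc_pos {X : Type*} [MetricSpace X] (C : Scale X) (j : ℕ) : 0 < C.sc j := by
  have := C.pos; unfold Scale.sc; positivity

namespace Prior
variable {Ω X : Type*} [Fintype Ω] {k : ℕ} (P : Prior Ω X k)

@[simp] theorem length_hist (ω : Ω) (t : ℕ) : (P.hist ω t).length = t := by
  induction t with
  | zero => rfl
  | succ t ih => simp [hist, ih]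

theorem hist_succ (ω : Ω) (t : ℕ) : P.hist ω (t + 1) = P.r ω t :: P.hist ω t := rfl

theorem valid_hist (ω : Ω) (t : ℕ) : P.Valid (P.hist ω t) := ⟨ω, t, rfl⟩

theorem Valid.tail {P : Prior Ω X k} {r : X} {h : List X} (H : P.Valid (r :: h)) : P.Valid h := by
  obtain ⟨ω, t, e⟩ := H
  cases t with
  | zero => cases e
  | succ t => exact ⟨ω, t, (List.cons.inj e).2⟩

theorem ET_mono {f g : Ω → ℕ → ℝ} (h : ∀ ω t, f ω t ≤ g ω t) : P.ET f ≤ P.ET g :=
  sum_le_sum fun ω _ => mul_le_mul_of_nonneg_left (sum_le_sum fun t _ => h ω t) (P.pos ω).le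

theorem ET_add (f g : Ω → ℕ → ℝ) : P.ET (fun ω t => f ω t + g ω t) = P.ET f + P.ET g := by
  simp only [ET, sum_add_distrib, mul_add]

theorem ET_sub (f g : Ω → ℕ → ℝ) : P.ET (fun ω t => f ω t - g ω t) = P.ET f - P.ET g := by
  simp only [ET, sum_sub_distrib, mul_sub]

theorem ET_mul (c : ℝ) (f : Ω → ℕ → ℝ) : P.ET (fun ω t => c * f ω t) = c * P.ET f := by
  simp only [ET, ← mul_sum, mul_left_comm _ c]

theorem ET_sum {ι : Type*} (s : Finset ι) (f : ι → Ω → ℕ → ℝ) :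
    P.ET (fun ω t => ∑ i ∈ s, f i ω t) = ∑ i ∈ s, P.ET (f i) := by
  simp only [ET]
  rw [sum_comm]
  refine sum_congr rfl fun ω _ => ?_
  rw [sum_comm, mul_sum]

theorem ET_const (c : ℝ) : P.ET (fun _ _ => c) = P.T * c := by
  simp [ET, ← sum_mul, P.one]

theorem ET_nonneg {f : Ω → ℕ → ℝ} (h : ∀ ω t, 0 ≤ f ω t) : 0 ≤ P.ET f := by
  simpa [ET_const] using P.ET_mono (f := fun _ _ => 0) h

/-- telescoping of a potential that ends above `m` and starts below `M` -/
theorem ET_tele (Φ : Ω → ℕ → ℝ) {m M : ℝ} (h0 : ∀ ω, Φ ω 0 ≤ M) (hT : ∀ ω, m ≤ Φ ω P.T) :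
    m - M ≤ P.ET fun ω t => Φ ω (t + 1) - Φ ω t := by
  simp only [ET, sum_range_sub]
  calc m - M = ∑ ω, P.p ω * (m - M) := by rw [← sum_mul, P.one, one_mul]
    _ ≤ _ := sum_le_sum fun ω _ =>
      mul_le_mul_of_nonneg_left (by linarith [h0 ω, hT ω]) (P.pos ω).le

theorem den_nonneg (h : List X) : 0 ≤ ∑ ω, ind (P.hist ω h.length = h) * P.p ω :=
  sum_nonneg fun ω _ => mul_nonneg (ind_nonneg _) (P.pos ω).le

theorem den_pos {h : List X} (H : P.Valid h) : 0 < ∑ ω, ind (P.hist ω h.length = h) * P.p ω := by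
  obtain ⟨ω, t, rfl⟩ := H
  refine sum_pos' (fun ω _ => mul_nonneg (ind_nonneg _) (P.pos ω).le) ⟨ω, mem_univ _, ?_⟩
  rw [length_hist, ind_pos rfl, one_mul]; exact P.pos ω

theorem CE_mono {h : List X} {f g : Ω → ℝ} (H : ∀ ω, P.hist ω h.length = h → f ω ≤ g ω) :
    P.CE h f ≤ P.CE h g := by
  refine div_le_div_of_nonneg_right (sum_le_sum fun ω _ => ?_) (P.den_nonneg h)
  by_cases e : P.hist ω h.length = h
  · exact mul_le_mul_of_nonneg_left (H ω e) (mul_nonneg (ind_nonneg _) (P.pos ω).le)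
  · simp [ind_neg e]

theorem CE_add (h : List X) (f g : Ω → ℝ) :
    P.CE h (fun ω => f ω + g ω) = P.CE h f + P.CE h g := by
  simp only [CE, mul_add, sum_add_distrib, add_div]

theorem CE_sub (h : List X) (f g : Ω → ℝ) :
    P.CE h (fun ω => f ω - g ω) = P.CE h f - P.CE h g := by
  simp only [CE, mul_sub, sum_sub_distrib, sub_div]

theorem CE_mul (h : List X) (c : ℝ) (f : Ω → ℝ) : P.CE h (fun ω => c * f ω) = c * P.CE h f := by
  simp only [CE, mul_left_comm _ c, ← mul_sum, mul_div_assoc]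

theorem CE_sum {ι : Type*} (s : Finset ι) (h : List X) (f : ι → Ω → ℝ) :
    P.CE h (fun ω => ∑ i ∈ s, f i ω) = ∑ i ∈ s, P.CE h (f i) := by
  simp only [CE, mul_sum, ← sum_div]
  rw [sum_comm]

theorem CE_const {h : List X} (H : P.Valid h) (c : ℝ) : P.CE h (fun _ => c) = c := by
  rw [CE, ← sum_mul, mul_div_cancel_left₀ _ (P.den_pos H).ne']

theorem CE_nonneg {h : List X} {f : Ω → ℝ} (H : ∀ ω, 0 ≤ f ω) : 0 ≤ P.CE h f := by
  have := P.CE_mono (h := h) (f := fun _ => 0) fun ω _ => H ω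
  simpa [CE] using this

/-- tower property -/
theorem tower (t : ℕ) (g : List X → Ω → ℝ) :
    ∑ ω, P.p ω * P.CE (P.hist ω t) (g (P.hist ω t)) = ∑ ω, P.p ω * g (P.hist ω t) ω := by
  simp only [CE, length_hist, sum_div, mul_sum]
  rw [sum_comm]
  refine sum_congr rfl fun ω _ => ?_
  have hd := (P.den_pos (P.valid_hist ω t)).ne'
  rw [length_hist] at hd
  rw [← mul_div_cancel_left₀ (P.p ω * g (P.hist ω t) ω) hd, sum_mul, sum_div]
  refine sum_congr rfl fun ω' _ => ?_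
  by_cases e : P.hist ω t = P.hist ω' t
  · rw [← e, ind_pos rfl]; ring
  · rw [ind_neg e, ind_neg (Ne.symm e)]; simp

/-- tower property at the later time of each step -/
theorem ET_tower (g : List X → Ω → ℝ) :
    P.ET (fun ω t => P.CE (P.hist ω (t + 1)) (g (P.hist ω (t + 1)))) =
      P.ET fun ω t => g (P.hist ω (t + 1)) ω := by
  simp only [ET, mul_sum]
  rw [sum_comm, sum_comm (s := univ)]
  exact sum_congr rfl fun t _ => P.tower (t + 1) g

/-- tower property at the earlier time of each step -/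
theorem ET_tower0 (g : List X → Ω → ℝ) :
    P.ET (fun ω t => P.CE (P.hist ω t) (g (P.hist ω t))) = P.ET fun ω t => g (P.hist ω t) ω := by
  simp only [ET, mul_sum]
  rw [sum_comm, sum_comm (s := univ)]
  exact sum_congr rfl fun t _ => P.tower t g

theorem ET_mu (φ : List X → X → ℝ) :
    P.ET (fun ω t => P.mu (P.hist ω (t + 1)) (φ (P.hist ω (t + 1)))) =
      P.ET fun ω t => ∑ a, φ (P.hist ω (t + 1)) (P.o ω (t + 1) a) := by
  have := P.ET_tower fun h ω => ∑ a, φ h (P.o ω h.length a)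
  simpa only [mu, length_hist] using this

theorem mu_mono (h : List X) {φ ψ : X → ℝ} (H : ∀ y, φ y ≤ ψ y) : P.mu h φ ≤ P.mu h ψ :=
  P.CE_mono fun _ _ => sum_le_sum fun _ _ => H _

theorem mu_nonneg (h : List X) {φ : X → ℝ} (H : ∀ y, 0 ≤ φ y) : 0 ≤ P.mu h φ :=
  P.CE_nonneg fun _ => sum_nonneg fun _ _ => H _

theorem mu_add (h : List X) (φ ψ : X → ℝ) :
    P.mu h (fun y => φ y + ψ y) = P.mu h φ + P.mu h ψ := by
  simp only [mu, sum_add_distrib, CE_add]

theorem mu_sub (h : List X) (φ ψ : X → ℝ) :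
    P.mu h (fun y => φ y - ψ y) = P.mu h φ - P.mu h ψ := by
  simp only [mu, sum_sub_distrib, CE_sub]

theorem mu_mul (h : List X) (c : ℝ) (φ : X → ℝ) : P.mu h (fun y => c * φ y) = c * P.mu h φ := by
  simp only [mu, ← mul_sum, CE_mul]

theorem mu_sum {ι : Type*} (s : Finset ι) (h : List X) (φ : ι → X → ℝ) :
    P.mu h (fun y => ∑ i ∈ s, φ i y) = ∑ i ∈ s, P.mu h (φ i) := by
  simp only [mu, ← CE_sum]
  congr 1; funext ω; exact sum_comm

theorem mu_const {h : List X} (H : P.Valid h) (c : ℝ) : P.mu h (fun _ => c) = k * c := by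
  simp [mu, P.CE_const H]

/-- the request carries posterior mass at least one -/
theorem mu_req {r : X} {h : List X} (H : P.Valid (r :: h)) {φ : X → ℝ} (h0 : ∀ y, 0 ≤ φ y) :
    φ r ≤ P.mu (r :: h) φ := by
  rw [← P.CE_const H (φ r)]
  refine P.CE_mono fun ω e => ?_
  obtain ⟨a, ha⟩ := P.serve ω h.length
  have : P.r ω h.length = r := (List.cons.inj e).1
  rw [← this, ← ha]
  exact single_le_sum (f := fun a => φ (P.o ω (h.length + 1) a)) (fun _ _ => h0 _) (mem_univ a)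

theorem cross_nonneg (S : List X → X → Prop) : 0 ≤ P.cross S :=
  P.ET_nonneg fun _ _ => sum_nonneg fun _ _ => by positivity

variable [MetricSpace X]

theorem Opt_nonneg : 0 ≤ P.Opt := P.ET_nonneg fun _ _ => sum_nonneg fun _ _ => dist_nonneg

theorem mv_nonneg (S : List X → X → Prop) : 0 ≤ P.mv S :=
  P.ET_nonneg fun _ _ => sum_nonneg fun _ _ => mul_nonneg (ind_nonneg _) dist_nonneg

theorem drag_nonneg (S : List X → X → Prop) (c : List X → X) : 0 ≤ P.drag S c :=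
  P.ET_nonneg fun _ _ => mul_nonneg (P.mu_nonneg _ fun _ => ind_nonneg _) dist_nonneg

theorem B0_nonneg (z : X) : 0 ≤ P.B0 z := sum_nonneg fun _ _ => dist_nonneg

end Prior

end Vale.Agent.P304
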