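import Vale.Agent.P304.Basic

/-! Random radii: the cutting probability. -/

namespace Vale.Agent.P304
open Finset
open scoped Classical

namespace CutAux

theorem one (N : ℕ) (hN : 1 ≤ N) {γ : ℝ} (hγ : 0 < γ) :
    ∃ (G : ℕ) (p v : ℕ → ℝ), (∀ g, 0 ≤ p g) ∧ ∑ g ∈ range G, p g = 1 ∧
      (∀ g < G, 1 / 2 ≤ v g ∧ v g ≤ 1) ∧ ∀ α ε, γ ≤ ε →
        ∑ g ∈ range G, p g * ind (α ≤ v g ∧ v g < α + ε) ≤
          3 * Real.log (2 * N) * ε * (∑ g ∈ range G, p g * ind (α ≤ v g) + 1 / N) := by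
  have hN1 : (1 : ℝ) ≤ N := by exact_mod_cast hN
  set β := Real.log (2 * N) with hβ
  have hβ0 : 0 < β := Real.log_pos (by linarith)
  obtain ⟨G, hG⟩ := exists_nat_gt (β + 1 / γ)
  have hγ1 : 0 < 1 / γ := by positivity
  have hG0 : (0 : ℝ) < G := by linarith
  have hG1 : 1 ≤ G * γ := by
    have : 1 / γ ≤ G := by linarith
    rwa [div_le_iff₀ hγ] at this
  set ρ := 1 - β / G with hρ
  have hρ0 : 0 ≤ ρ := by
    have : β / G ≤ 1 := (div_le_one hG0).2 (by linarith)
    linarith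
  have hρ1 : ρ ≤ 1 := by
    have : 0 ≤ β / G := by positivity
    linarith
  have hρG : ρ ^ G ≤ 1 / (2 * N) := by
    have h1 : ρ ≤ Real.exp (-(β / G)) := by linarith [Real.add_one_le_exp (-(β / G))]
    refine (pow_le_pow_left₀ hρ0 h1 G).trans (le_of_eq ?_)
    rw [← Real.exp_nat_mul, mul_neg, mul_div_cancel₀ _ hG0.ne', Real.exp_neg,
      Real.exp_log (by positivity), one_div]
  have hN2 : 1 / (2 * (N : ℝ)) ≤ 1 / 2 := by gcongr; linarith
  have hd : 1 / 2 ≤ 1 - ρ ^ G := by linarith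
  have hd0 : 0 < 1 - ρ ^ G := by linarith
  have hp0 : ∀ g, 0 ≤ ρ ^ g * (1 - ρ) / (1 - ρ ^ G) := fun g =>
    div_nonneg (mul_nonneg (pow_nonneg hρ0 g) (by linarith)) hd0.le
  refine ⟨G, fun g => ρ ^ g * (1 - ρ) / (1 - ρ ^ G), fun g => 1 / 2 + g / (2 * G), hp0, ?_,
    fun g hg => ⟨by linarith [(by positivity : (0 : ℝ) ≤ g / (2 * G))], ?_⟩, fun α ε hε => ?_⟩
  · rw [← sum_div, ← sum_mul, geom_sum_mul_neg, div_self hd0.ne']
  · have : (g : ℝ) ≤ G := by exact_mod_cast hg.le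
    have : (g : ℝ) / (2 * G) ≤ 1 / 2 := by rw [div_le_iff₀ (by positivity)]; linarith
    linarith
  have hε0 : 0 < ε := by linarith
  have hQ0 : 0 ≤ ∑ g ∈ range G, ρ ^ g * (1 - ρ) / (1 - ρ ^ G) *
      ind (α ≤ 1 / 2 + (g : ℝ) / (2 * G)) := sum_nonneg fun g _ => mul_nonneg (hp0 g) (ind_nonneg _)
  by_cases hex : ∃ g : ℕ, g < G ∧ α ≤ 1 / 2 + (g : ℝ) / (2 * G)
  swap
  · rw [sum_eq_zero fun g hg => by rw [ind_neg fun h => hex ⟨g, mem_range.1 hg, h.1⟩, mul_zero]]
    positivity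
  obtain ⟨h1, h2⟩ := Nat.find_spec hex
  have h3 := fun g => Nat.find_min' hex (m := g)
  generalize Nat.find hex = g0 at h1 h2 h3
  have k1 : ∑ g ∈ range G, ρ ^ g * (1 - ρ) / (1 - ρ ^ G) *
      ind (α ≤ 1 / 2 + (g : ℝ) / (2 * G) ∧ 1 / 2 + (g : ℝ) / (2 * G) < α + ε) ≤
      (3 * G * ε) * (ρ ^ g0 * (1 - ρ) / (1 - ρ ^ G)) := by
    simp only [ind, mul_ite, mul_one, mul_zero, ← sum_filter]
    refine (sum_le_card_nsmul _ _ (ρ ^ g0 * (1 - ρ) / (1 - ρ ^ G)) fun g hg => ?_).trans ?_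
    · have := h3 g ⟨mem_range.1 (mem_filter.1 hg).1, (mem_filter.1 hg).2.1⟩
      have := pow_le_pow_of_le_one hρ0 hρ1 this
      have : 0 ≤ 1 - ρ := by linarith
      gcongr
    · rw [nsmul_eq_mul]
      refine mul_le_mul_of_nonneg_right ?_ (hp0 _)
      have : #((range G).filter fun g : ℕ =>
          α ≤ 1 / 2 + (g : ℝ) / (2 * G) ∧ 1 / 2 + (g : ℝ) / (2 * G) < α + ε) ≤
          #(Ico g0 (g0 + ⌈2 * G * ε⌉₊)) := card_le_card fun g hg => by
        obtain ⟨hg1, hg2, hg3⟩ := mem_filter.1 hg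
        refine mem_Ico.2 ⟨h3 g ⟨mem_range.1 hg1, hg2⟩, ?_⟩
        have h4 : (g : ℝ) / (2 * G) < g0 / (2 * G) + ε := by linarith
        rw [div_lt_iff₀ (by positivity), add_mul, div_mul_cancel₀ _ (by positivity)] at h4
        have := Nat.le_ceil (2 * G * ε)
        exact_mod_cast (by push_cast; linarith : (g : ℝ) < ((g0 + ⌈2 * G * ε⌉₊ : ℕ) : ℝ))
      rw [Nat.card_Ico, Nat.add_sub_cancel_left] at this
      have h5 := (Nat.ceil_lt_add_one (by positivity : 0 ≤ 2 * G * ε)).le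
      have h6 := mul_le_mul_of_nonneg_left hε hG0.le
      exact (Nat.cast_le.2 this).trans (by linarith)
  have k2 : (ρ ^ g0 - ρ ^ G) / (1 - ρ ^ G) ≤ ∑ g ∈ range G, ρ ^ g * (1 - ρ) / (1 - ρ ^ G) *
      ind (α ≤ 1 / 2 + (g : ℝ) / (2 * G)) := by
    rw [← geom_sum_Ico_mul_neg ρ h1.le, sum_mul, sum_div]
    refine le_trans (sum_le_sum fun g hg => ?_) (sum_le_sum_of_subset_of_nonneg
      (fun g hg => mem_range.2 (mem_Ico.1 hg).2) fun g _ _ => mul_nonneg (hp0 g) (ind_nonneg _))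
    have : (g0 : ℝ) ≤ g := by exact_mod_cast (mem_Ico.1 hg).1
    rw [ind_pos (h2.trans (by gcongr)), mul_one]
  have k3 : ρ ^ G / (1 - ρ ^ G) ≤ 1 / N := by
    rw [div_le_iff₀ hd0]
    have : 1 / (2 * (N : ℝ)) = 1 / N * (1 / 2) := by field_simp
    have h7 := mul_le_mul_of_nonneg_left hd (by positivity : (0 : ℝ) ≤ 1 / N)
    linarith
  refine k1.trans ?_
  have e : 3 * G * ε * (ρ ^ g0 * (1 - ρ) / (1 - ρ ^ G)) =
      3 * β * ε * ((ρ ^ g0 - ρ ^ G) / (1 - ρ ^ G) + ρ ^ G / (1 - ρ ^ G)) := by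
    have : 1 - ρ = β / G := by rw [hρ]; ring
    rw [this]; field_simp; ring
  rw [e]
  gcongr

end CutAux

theorem cut_avg (N : ℕ) (hN : 1 ≤ N) {γ : ℝ} (hγ : 0 < γ) :
    ∃ (ι : Type) (_ : Fintype ι) (q : ι → ℝ) (u : ι → ℕ → ℝ), (∀ i, 0 ≤ q i) ∧ ∑ i, q i = 1 ∧
      (∀ i m, 1 / 2 ≤ u i m ∧ u i m ≤ 1) ∧
      ∀ {X : Type*} [MetricSpace X] (R : ℝ) (Z : List X) (y y' : X), 0 < R → Z.length ≤ N →
        (y ≠ y' → γ * R ≤ dist y y') →
        ∑ i, q i * ind (cap R Z (u i) y ≠ cap R Z (u i) y') ≤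
          6 * Real.log (2 * N) * (dist y y' / R) := by
  obtain ⟨G, p, v, p0, p1, hv, H⟩ := CutAux.one N hN hγ
  have hN1 : (1 : ℝ) ≤ N := by exact_mod_cast hN
  have hβ0 : 0 < Real.log (2 * N) := Real.log_pos (by linarith)
  suffices h : ∀ n : ℕ, ∃ (ι : Type) (_ : Fintype ι) (q : ι → ℝ) (u : ι → ℕ → ℝ),
      (∀ i, 0 ≤ q i) ∧ ∑ i, q i = 1 ∧ (∀ i m, 1 / 2 ≤ u i m ∧ u i m ≤ 1) ∧
      ∀ {X : Type _} [MetricSpace X] (R : ℝ) (Z : List X) (y y' : X), 0 < R → Z.length ≤ n →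
        γ * R ≤ dist y y' → ∑ i, q i * ind (cap R Z (u i) y ≠ cap R Z (u i) y') ≤
          3 * Real.log (2 * N) * (dist y y' / R) * (1 + n / N) by
    obtain ⟨ι, _, q, u, h1, h2, h3, h4⟩ := h N
    refine ⟨ι, inferInstance, q, u, h1, h2, h3, fun R Z y y' hR hZ hy => ?_⟩
    by_cases e : y = y'
    · simp [e, ind]
    · refine (h4 R Z y y' hR hZ (hy e)).trans (le_of_eq ?_)
      rw [div_self (by positivity)]; ring
  intro n
  induction n with
  | zero =>
    refine ⟨Unit, inferInstance, fun _ => 1, fun _ _ => 1, fun _ => zero_le_one, by simp,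
      fun _ _ => by norm_num, fun R Z y y' hR hZ _ => ?_⟩
    obtain rfl := List.length_eq_zero_iff.1 (Nat.le_zero.1 hZ)
    simp only [cap, ne_eq, not_true_eq_false, ind_neg not_false, mul_zero, sum_const_zero]
    positivity
  | succ n ih =>
    obtain ⟨ι, _, q, u, h1, h2, h3, h4⟩ := ih
    refine ⟨Fin G × ι, inferInstance, fun i => p i.1 * q i.2,
      fun i m => Nat.casesOn m (v i.1) (u i.2), fun i => mul_nonneg (p0 _) (h1 _), ?_,
      fun i m => ?_, fun R Z y y' hR hZ hy => ?_⟩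
    · rw [Fintype.sum_prod_type]
      simp only [← mul_sum, h2, mul_one]
      rwa [← sum_range]
    · cases m
      exacts [hv _ i.1.2, h3 _ _]
    cases Z with
    | nil =>
      simp only [cap, ne_eq, not_true_eq_false, ind_neg not_false, mul_zero, sum_const_zero]
      positivity
    | cons x Z =>
      have k0 := h4 R Z y y' hR (by simpa using hZ) hy
      have k1 := H (min (dist x y) (dist x y') / R) (dist y y' / R) ((le_div_iff₀ hR).2 hy)
      set η := 3 * Real.log (2 * N) * (dist y y' / R) with hη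
      have hη0 : 0 ≤ η := by positivity
      have k2 : ∀ g : ℕ, ∑ i, q i * ind (cap R (x :: Z) (fun m => Nat.casesOn m (v g) (u i)) y ≠
          cap R (x :: Z) (fun m => Nat.casesOn m (v g) (u i)) y') ≤
          ind (min (dist x y) (dist x y') / R ≤ v g ∧
            v g < min (dist x y) (dist x y') / R + dist y y' / R) +
          (1 - ind (min (dist x y) (dist x y') / R ≤ v g)) * (η * (1 + n / N)) := fun g => by
        simp only [cap, ← add_div, div_le_iff₀' hR, lt_div_iff₀' hR]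
        have hle : ∀ f : ι → Prop, ∑ i, q i * ind (f i) ≤ 1 := fun f =>
          (sum_le_sum fun i _ => mul_le_of_le_one_right (h1 i) (ind_le_one _)).trans h2.le
        have t1 := dist_triangle x y y'
        have t2 := dist_triangle_right x y y'
        by_cases a1 : dist x y ≤ R * v g <;> by_cases a2 : dist x y' ≤ R * v g
        · rw [ind_pos (min_le_of_left_le a1)]
          simp [a1, a2, ind_neg, ind_nonneg]
        · rw [ind_pos (min_le_of_left_le a1), ind_pos ⟨min_le_of_left_le a1, by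
            rw [min_eq_left (by linarith)]; linarith⟩]
          simpa using hle _
        · rw [ind_pos (min_le_of_right_le a2), ind_pos ⟨min_le_of_right_le a2, by
            rw [min_eq_right (by linarith)]; linarith [dist_triangle x y' y, dist_comm y y']⟩]
          simpa using hle _
        · have : ¬ min (dist x y) (dist x y') ≤ R * v g := by simp [not_le.1 a1, not_le.1 a2]
          rw [ind_neg this, ind_neg fun h => this h.1]
          simpa [a1, a2] using k0
      rw [Fintype.sum_prod_type]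
      simp only [mul_assoc (p _), ← mul_sum]
      refine (sum_le_sum fun (g : Fin G) _ => mul_le_mul_of_nonneg_left (k2 g) (p0 g)).trans ?_
      rw [← sum_range fun g => p g * (ind (min (dist x y) (dist x y') / R ≤ v g ∧
        v g < min (dist x y) (dist x y') / R + dist y y' / R) +
          (1 - ind (min (dist x y) (dist x y') / R ≤ v g)) * (η * (1 + n / N)))]
      simp only [mul_add (p _), sum_add_distrib, ← mul_assoc (p _), ← sum_mul, mul_sub (p _),
        sum_sub_distrib, mul_one, p1]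
      have k3 : 0 ≤ ∑ g ∈ range G, p g * ind (min (dist x y) (dist x y') / R ≤ v g) :=
        sum_nonneg fun g _ => mul_nonneg (p0 g) (ind_nonneg _)
      have k4 := mul_nonneg k3 (mul_nonneg hη0 (by positivity : (0 : ℝ) ≤ n / N))
      push_cast
      rw [add_div]
      linarith

end Vale.Agent.P304
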