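import Vale.Agent.P304.Stmt

/-! Shared definitions for the proof. -/

namespace Vale.Agent.P304
open Finset
open scoped Classical

/-- movement of a deterministic policy -/
def dcost {X : Type*} [MetricSpace X] {k : ℕ} (π : List (X × Fin k) → X → Fin k) :
    List (X × Fin k) → (Fin k → X) → List X → ℝ
  | _, _, [] => 0
  | h, s, r :: σ =>
    dist (s (π h r)) r + dcost π ((r, π h r) :: h) (Function.update s (π h r) r) σ

/-- real indicator -/
noncomputable def ind (P : Prop) : ℝ := if P then 1 else 0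

/-- A finite prior: requests `r ω t` (served at time `t + 1`) and an offline schedule `o`. -/
structure Prior (Ω X : Type*) [Fintype Ω] (k : ℕ) where
  p : Ω → ℝ
  pos : ∀ ω, 0 < p ω
  one : ∑ ω, p ω = 1
  r : Ω → ℕ → X
  o : Ω → ℕ → Fin k → X
  s : Fin k → X
  T : ℕ
  init : ∀ ω, o ω 0 = s
  serve : ∀ ω t, ∃ a, o ω (t + 1) a = r ω t

namespace Prior
variable {Ω X : Type*} [Fintype Ω] {k : ℕ} (P : Prior Ω X k)

/-- the requests seen up to time `t`, most recent first -/
def hist (ω : Ω) : ℕ → List X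
  | 0 => []
  | t + 1 => P.r ω t :: hist ω t

def Valid (h : List X) : Prop := ∃ ω t, P.hist ω t = h

/-- expected sum over the time steps -/
noncomputable def ET (f : Ω → ℕ → ℝ) : ℝ := ∑ ω, P.p ω * ∑ t ∈ range P.T, f ω t

/-- conditional expectation given the history `h` -/
noncomputable def CE (h : List X) (f : Ω → ℝ) : ℝ :=
  (∑ ω, ind (P.hist ω h.length = h) * P.p ω * f ω) / ∑ ω, ind (P.hist ω h.length = h) * P.p ω

/-- integral of `φ` against the posterior mean measure of the offline servers -/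
noncomputable def mu (h : List X) (φ : X → ℝ) : ℝ :=
  P.CE h fun ω => ∑ a, φ (P.o ω h.length a)

/-- expected number of crossings of the moving set `S` by the offline servers -/
noncomputable def cross (S : List X → X → Prop) : ℝ :=
  P.ET fun ω t => ∑ a,
    (|ind (S (P.hist ω t) (P.o ω t a)) - ind (S (P.hist ω t) (P.o ω (t + 1) a))| +
     |ind (S (P.hist ω t) (P.o ω (t + 1) a)) - ind (S (P.hist ω (t + 1)) (P.o ω (t + 1) a))|)

variable [MetricSpace X]

/-- offline movement -/
noncomputable def Opt : ℝ := P.ET fun ω t => ∑ a, dist (P.o ω t a) (P.o ω (t + 1) a)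

/-- offline movement starting inside `S` -/
noncomputable def mv (S : List X → X → Prop) : ℝ :=
  P.ET fun ω t => ∑ a, ind (S (P.hist ω t) (P.o ω t a)) * dist (P.o ω t a) (P.o ω (t + 1) a)

/-- movement of the centre `c` weighted by the posterior mass of `S` -/
noncomputable def drag (S : List X → X → Prop) (c : List X → X) : ℝ :=
  P.ET fun ω t => P.mu (P.hist ω (t + 1)) (fun y => ind (S (P.hist ω (t + 1)) y)) *
    dist (c (P.hist ω t)) (c (P.hist ω (t + 1)))

/-- initial spread around `z` -/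
noncomputable def B0 (z : X) : ℝ := ∑ a, dist (P.s a) z

end Prior

/-- scales of a finite metric space -/
structure Scale (X : Type*) [MetricSpace X] where
  h0 : ℝ
  J : ℕ
  pos : 0 < h0
  lo : ∀ x y : X, x ≠ y → h0 ≤ dist x y
  hi : ∀ x y : X, dist x y < h0 * 4 ^ J

noncomputable def Scale.sc {X : Type*} [MetricSpace X] (C : Scale X) (j : ℕ) : ℝ := C.h0 * 4 ^ j

/-- first centre of the list whose ball (radius `R * u m` for the `m`-th centre) contains `y` -/
noncomputable def cap {X : Type*} [MetricSpace X] (R : ℝ) : List X → (ℕ → ℝ) → X → Option X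
  | [], _, _ => none
  | x :: Z, u, y => if dist x y ≤ R * u 0 then some x else cap R Z (fun m => u (m + 1)) y

/-- What the analysis of one node provides. -/
structure NodeOut {Ω X : Type*} [Fintype Ω] [Fintype X] [MetricSpace X] {k : ℕ}
    (P : Prior Ω X k) (C : Scale X) (S : List X → X → Prop) (z : X) (ρ : ℝ)
    (c : List X → X) (own : List X → X → Option (Fin C.J × X)) : Prop where
  c0 : c [] = z
  own0 : ∀ y, own [] y = none
  ball : ∀ h, dist (c h) z ≤ ρ
  geo : ∀ h y e, own h y = some e → dist y e.2 ≤ C.sc e.1 / 5000 ∧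
    dist e.2 (c h) ≤ 9 / 2 * C.sc e.1 ∧ C.sc e.1 ≤ 4 * ρ
  mass : ∀ h, P.Valid h → ∀ e, P.mu h (fun y => ind (S h y ∧ own h y = some e)) ≤
    6 / 7 * P.mu h (fun y => ind (S h y))
  req : ∀ r h, S (r :: h) r → own (r :: h) r = none → c (r :: h) = r
  cst : ∑ e : Fin C.J × X, C.sc e.1 * P.cross (fun h y => S h y ∧ own h y = some e) +
    P.drag S c ≤ 10 ^ 8 * Real.log k * P.mv S + 2184 * ρ * P.cross S +
      546 * ∑ a, ind (S [] (P.s a)) * dist (P.s a) z

/-- depth bound -/
def Dep (k : ℕ) : ℕ := 5 * (Nat.log 2 k + 1)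

/-- The evolving tree embedding. -/
structure TreeD {Ω X : Type*} [Fintype Ω] [Fintype X] [MetricSpace X] {k : ℕ}
    (P : Prior Ω X k) (C : Scale X) (z : X) (V : Type*) [Fintype V] where
  root : V
  par : V → V
  dep : V → ℕ
  lv : V → ℕ
  S : V → List X → X → Prop
  c : V → List X → X
  dep_root : dep root = 0
  dep_par : ∀ v, v ≠ root → dep v = dep (par v) + 1
  dep_le : ∀ v, dep v ≤ Dep k
  lv_root : lv root = C.J
  lv_par : ∀ v, v ≠ root → lv v < lv (par v)
  lv_lt : ∀ v, v ≠ root → lv v < C.J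
  S_root : ∀ h y, S root h y
  S_par : ∀ v h y, S v h y → S (par v) h y
  S_disj : ∀ u v h y, u ≠ root → v ≠ root → par u = par v → S u h y → S v h y → u = v
  S_nil : ∀ v y, S v [] y → v = root
  c_nil : c root [] = z
  geo : ∀ v h y, v ≠ root → S v h y → dist (c v h) (c (par v) h) ≤ 5 * C.sc (lv v)
  req : ∀ r h, P.Valid (r :: h) → ∃ v, S v (r :: h) r ∧
    (∀ u, u ≠ root → par u = v → ¬ S u (r :: h) r) ∧ c v (r :: h) = r
  cst : ∑ v ∈ univ.erase root, C.sc (lv v) * P.cross (S v) + ∑ v, P.drag (S v) (c v) ≤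
    10 ^ 10 * Real.log k ^ 2 * (P.Opt + P.B0 z)

/-- The fractional algorithm on the tree. -/
structure Frac {Ω X : Type*} [Fintype Ω] [Fintype X] [MetricSpace X] {k : ℕ}
    {P : Prior Ω X k} {C : Scale X} {z : X} {V : Type*} [Fintype V] (T : TreeD P C z V)
    (ν : V → List X → ℝ) : Prop where
  root : ∀ h, ν T.root h = k
  nonneg : ∀ v h, 0 ≤ ν v h
  nil : ∀ v, v ≠ T.root → ν v [] = 0
  sup : ∀ v h, P.Valid h → ∑ u with u ≠ T.root ∧ T.par u = v, ν u h ≤ ν v h
  le_mu : ∀ v h, P.Valid h → ν v h ≤ P.mu h fun y => ind (T.S v h y)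
  req : ∀ v r h, P.Valid (r :: h) → T.S v (r :: h) r →
    (∀ u, u ≠ T.root → T.par u = v → ¬ T.S u (r :: h) r) →
    ∑ u with u ≠ T.root ∧ T.par u = v, ν u (r :: h) + (1 - 1 / (3 * k)) ≤ ν v (r :: h)
  cst : ∀ v, v ≠ T.root → P.ET (fun ω t => |ν v (P.hist ω t) - ν v (P.hist ω (t + 1))|) ≤
    1200 * Real.log k ^ 2 * P.cross (T.S v)

/-- a levelled rooted tree -/
structure LTree (H : Type*) where
  top : H
  par : H → H
  lev : H → ℕ
  lev_par : ∀ x, x ≠ top → lev (par x) = lev x + 1
  lev_lt : ∀ x, x ≠ top → lev x < lev top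

namespace LTree
variable {H : Type*} [Fintype H] (L : LTree H)

noncomputable def ch (x : H) : Finset H := {y | y ≠ L.top ∧ L.par y = x}

/-- superadditive counts -/
def Sup (n : H → ℕ) : Prop := ∀ x, ∑ y ∈ L.ch x, n y ≤ n x

/-- `n` is a family of `G` superadditive integral states rounding `Y / G` in a balanced way -/
def Bal {G : ℕ} (n : Fin G → H → ℕ) (Y : H → ℕ) : Prop :=
  (∀ g, L.Sup (n g)) ∧ (∀ x, ∑ g, n g x = Y x) ∧ ∀ x g g', n g x ≤ n g' x + 1

/-- number of servers sitting at the node itself -/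
noncomputable def idle (n : H → ℕ) (x : H) : ℕ := n x - ∑ y ∈ L.ch x, n y

/-- the real configuration -/
noncomputable def conf {X : Type*} (n : H → ℕ) (pos : H → X) : Multiset X :=
  ∑ x, Multiset.replicate (L.idle n x) (pos x)

end LTree

end Vale.Agent.P304
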