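import Vale.Agent.P304.Basic

/-! Transport between real configurations. -/

namespace Vale.Agent.P304
open Finset
open scoped Classical

namespace TrAux
variable {X : Type*} [MetricSpace X] {k : ℕ}

/-- transport of cost at most `b` -/
def Tr (k : ℕ) (A B : Multiset X) (b : ℝ) : Prop :=
  ∀ q : Fin k → X, univ.val.map q = A →
    ∃ q' : Fin k → X, univ.val.map q' = B ∧ ∑ a, dist (q a) (q' a) ≤ b

theorem refl (A : Multiset X) {b : ℝ} (hb : 0 ≤ b) : Tr k A A b :=
  fun q hq => ⟨q, hq, by simpa using hb⟩

theorem Tr.trans {A B C : Multiset X} {b c : ℝ} (h1 : Tr k A B b) (h2 : Tr k B C c) :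
    Tr k A C (b + c) := by
  intro q hq
  obtain ⟨q1, e1, l1⟩ := h1 q hq
  obtain ⟨q2, e2, l2⟩ := h2 q1 e1
  refine ⟨q2, e2, le_trans (sum_le_sum fun a _ => dist_triangle (q a) (q1 a) (q2 a)) ?_⟩
  rw [sum_add_distrib]; linarith

theorem Tr.mono {A B : Multiset X} {b c : ℝ} (h1 : Tr k A B b) (h : b ≤ c) : Tr k A B c :=
  fun q hq => let ⟨q1, e1, l1⟩ := h1 q hq; ⟨q1, e1, l1.trans h⟩

theorem map_univ (q : Fin k → X) (a : Fin k) :
    univ.val.map q = q a ::ₘ (univ.erase a).val.map q := by
  conv_lhs => rw [← insert_erase (mem_univ a), insert_val_of_notMem (notMem_erase a _)]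
  rw [Multiset.map_cons]

theorem single (x x' : X) (R : Multiset X) : Tr k (x ::ₘ R) (x' ::ₘ R) (dist x x') := by
  intro q hq
  have hx : x ∈ univ.val.map q := hq ▸ Multiset.mem_cons_self x R
  obtain ⟨a, -, rfl⟩ := Multiset.mem_map.1 hx
  rw [map_univ q a, Multiset.cons_inj_right] at hq
  refine ⟨Function.update q a x', ?_, ?_⟩
  · rw [map_univ _ a, Function.update_self, ← hq]
    congr 1
    refine Multiset.map_congr rfl fun b hb => Function.update_of_ne ?_ _ _
    exact (mem_erase.1 (show b ∈ univ.erase a from hb)).1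
  · rw [sum_eq_single a (fun b _ hb => by rw [Function.update_of_ne hb, dist_self]) (by simp),
      Function.update_self]

theorem rep (c : ℕ) (x x' : X) (R : Multiset X) :
    Tr k (Multiset.replicate c x + R) (Multiset.replicate c x' + R) (c * dist x x') := by
  induction c generalizing R with
  | zero => exact refl _ (by simp)
  | succ c ih =>
    have h1 := single (k := k) x x' (Multiset.replicate c x + R)
    have h2 := ih (x' ::ₘ R)
    rw [Multiset.add_cons] at h2
    have := h1.trans h2
    rw [Multiset.add_cons] at this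
    rw [Multiset.replicate_succ, Multiset.replicate_succ, Multiset.cons_add, Multiset.cons_add]
    refine this.mono (le_of_eq ?_)
    push_cast; ring

theorem mid {H : Type*} (s : Finset H) (c : H → ℕ) (pos pos' : H → X) (R : Multiset X) :
    Tr k (∑ x ∈ s, Multiset.replicate (c x) (pos x) + R)
      (∑ x ∈ s, Multiset.replicate (c x) (pos' x) + R) (∑ x ∈ s, c x * dist (pos x) (pos' x)) := by
  induction s using Finset.induction_on generalizing R with
  | empty => exact refl _ (by simp)
  | insert a s ha ih =>
    rw [sum_insert ha, sum_insert ha, sum_insert ha]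
    have h1 := rep (k := k) (c a) (pos a) (pos' a) (∑ x ∈ s, Multiset.replicate (c x) (pos x) + R)
    have h2 := ih (Multiset.replicate (c a) (pos' a) + R)
    rw [add_left_comm] at h2
    have := h1.trans h2
    rw [add_assoc, add_assoc, add_left_comm (Multiset.replicate (c a) (pos' a))]
    exact this

variable {H : Type*} [Fintype H] (L : LTree H)

theorem rep_ite (x : H) (pos : H → X) :
    ∑ z, Multiset.replicate (if z = x then 1 else 0) (pos z) = {pos x} := by
  rw [sum_eq_single x (fun b _ hb => by simp [hb]) (by simp)]; simp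

theorem down {m : H → ℕ} (hm : L.Sup m) {pos : H → X} {W : H → ℝ} (N : ℕ) :
    ∀ n : H → ℕ, L.Sup n → (∀ x, m x ≤ n x) → n L.top = m L.top →
      (∀ x, x ≠ L.top → 0 < n x → dist (pos x) (pos (L.par x)) ≤ W x) →
      ∑ x, (n x - m x) = N →
      Tr k (L.conf n pos) (L.conf m pos) (∑ x, W x * ((n x : ℝ) - m x)) ∧
      Tr k (L.conf m pos) (L.conf n pos) (∑ x, W x * ((n x : ℝ) - m x)) := by
  induction N with
  | zero =>
    intro n _ hle _ _ h0
    have : n = m := funext fun x => by
      have := (sum_eq_zero_iff.1 h0) x (mem_univ x)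
      have := hle x
      omega
    subst this
    exact ⟨refl _ (by simp), refl _ (by simp)⟩
  | succ N ih =>
    intro n hn hle ht hW hN
    have hne : (univ.filter fun x => m x < n x).Nonempty := by
      by_contra hc
      rw [not_nonempty_iff_eq_empty, filter_eq_empty_iff] at hc
      rw [sum_eq_zero fun x hx => by have := hc hx; omega] at hN
      omega
    obtain ⟨x, hx, hmin⟩ := exists_min_image _ L.lev hne
    have hx := (mem_filter.1 hx).2
    have hxt : x ≠ L.top := fun e => by rw [e] at hx; omega
    have hpx : L.par x ≠ x := fun e => by have := L.lev_par x hxt; rw [e] at this; omega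
    have hch : ∑ y ∈ L.ch x, n y = ∑ y ∈ L.ch x, m y := sum_congr rfl fun y hy => by
      obtain ⟨h1, h2⟩ := (mem_filter.1 hy).2
      have h3 := L.lev_par y h1
      rw [h2] at h3
      by_contra hc
      have := hmin y (mem_filter.2 ⟨mem_univ _, lt_of_le_of_ne (hle y) (Ne.symm hc)⟩)
      omega
    have hid : ∑ y ∈ L.ch x, n y < n x := by have := hm x; omega
    set n1 := Function.update n x (n x - 1) with hn1
    have e1 : ∀ z, n1 z + (if z = x then 1 else 0) = n z := fun z => by
      by_cases h : z = x
      · rw [h, hn1, Function.update_self, if_pos rfl]; omega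
      · rw [hn1, Function.update_of_ne h, if_neg h, add_zero]
    have e2 : ∀ z, ∑ y ∈ L.ch z, n1 y + (if z = L.par x then 1 else 0) = ∑ y ∈ L.ch z, n y := by
      intro z
      rw [← sum_congr rfl fun y _ => e1 y, sum_add_distrib, sum_ite_eq']
      congr 1
      simp only [LTree.ch, mem_filter, mem_univ, true_and, hxt, ne_eq, not_false_eq_true, eq_comm]
    have s1 : L.Sup n1 := fun z => by
      have a1 := e1 z
      have a2 := e2 z
      have a3 := hn z
      by_cases h : z = x
      · subst h; rw [if_pos rfl] at a1; omega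
      · rw [if_neg h] at a1; omega
    have e3 : ∀ z, L.idle n1 z + (if z = x then 1 else 0) =
        L.idle n z + (if z = L.par x then 1 else 0) := fun z => by
      have a1 := e1 z
      have a2 := e2 z
      have a3 := hn z
      have a4 := s1 z
      unfold LTree.idle
      omega
    have e4 : L.conf n1 pos + {pos x} = L.conf n pos + {pos (L.par x)} := by
      rw [← rep_ite x pos, ← rep_ite (L.par x) pos, LTree.conf, LTree.conf, ← sum_add_distrib,
        ← sum_add_distrib]
      exact sum_congr rfl fun z _ => by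
        rw [← Multiset.replicate_add, ← Multiset.replicate_add, e3]
    have hmem : pos x ∈ L.conf n pos := by
      rw [LTree.conf, Multiset.mem_sum]
      exact ⟨x, mem_univ _, Multiset.mem_replicate.2 ⟨by unfold LTree.idle; omega, rfl⟩⟩
    obtain ⟨R, hR⟩ := Multiset.exists_cons_of_mem hmem
    have hR1 : L.conf n1 pos = pos (L.par x) ::ₘ R := by
      rw [hR, ← Multiset.singleton_add, add_assoc, add_comm] at e4
      rw [add_left_cancel e4, add_comm, Multiset.singleton_add]
    have hle1 : ∀ z, m z ≤ n1 z := fun z => by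
      have a1 := e1 z
      have a2 := hle z
      by_cases h : z = x
      · subst h; rw [if_pos rfl] at a1; omega
      · rw [if_neg h] at a1; omega
    obtain ⟨i1, i2⟩ := ih n1 s1 hle1 (by rw [hn1, Function.update_of_ne hxt.symm, ht])
      (fun z hz h0 => hW z hz (by have := e1 z; omega)) (by
        have : ∑ z, (n z - m z) = ∑ z, ((n1 z - m z) + if z = x then 1 else 0) :=
          sum_congr rfl fun z _ => by have := e1 z; have := hle1 z; omega
        rw [sum_add_distrib, sum_ite_eq', if_pos (mem_univ _)] at this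
        omega)
    have hc : ∑ z, W z * ((n z : ℝ) - m z) = W x + ∑ z, W z * ((n1 z : ℝ) - m z) := by
      have : ∀ z, W z * ((n z : ℝ) - m z) =
          (if z = x then W z else 0) + W z * ((n1 z : ℝ) - m z) := fun z => by
        rw [← e1 z]; push_cast; split_ifs <;> ring
      rw [sum_congr rfl fun z _ => this z, sum_add_distrib, sum_ite_eq', if_pos (mem_univ _)]
    have hw := hW x hxt (by omega)
    rw [hR1] at i1 i2
    rw [hR, hc]
    refine ⟨((single _ _ R).trans i1).mono (by linarith), (i2.trans (single _ _ R)).mono ?_⟩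
    rw [dist_comm]; linarith

end TrAux

theorem LTree.transport {H X : Type*} [Fintype H] [MetricSpace X] (L : LTree H) {k : ℕ}
    {n n' : H → ℕ} (hn : L.Sup n) (hn' : L.Sup n') (ht : n L.top = n' L.top)
    {pos pos' : H → X} {W : H → ℝ} (hW0 : ∀ x, 0 ≤ W x)
    (hW : ∀ x, x ≠ L.top → 0 < n x → dist (pos x) (pos (L.par x)) ≤ W x)
    (hW' : ∀ x, x ≠ L.top → 0 < n' x → dist (pos' x) (pos' (L.par x)) ≤ W x)
    (q : Fin k → X) (hq : univ.val.map q = L.conf n pos) :
    ∃ q' : Fin k → X, univ.val.map q' = L.conf n' pos' ∧ ∑ a, dist (q a) (q' a) ≤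
      ∑ x, W x * |(n x : ℝ) - n' x| +
        ∑ x, L.idle (fun y => min (n y) (n' y)) x * dist (pos x) (pos' x) := by
  have hm : L.Sup fun y => min (n y) (n' y) := fun x =>
    le_min ((sum_le_sum fun y _ => min_le_left _ _).trans (hn x))
      ((sum_le_sum fun y _ => min_le_right _ _).trans (hn' x))
  have h1 := (TrAux.down (k := k) L hm _ n hn (fun _ => min_le_left _ _) (by simp [ht]) hW rfl).1
  have h3 := (TrAux.down (k := k) L hm _ n' hn' (fun _ => min_le_right _ _) (by simp [ht]) hW'
    rfl).2
  have h2 := TrAux.mid (k := k) univ (L.idle fun y => min (n y) (n' y)) pos pos' 0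
  rw [add_zero, add_zero] at h2
  refine (((h1.trans h2).trans h3).mono (le_of_eq ?_)) q hq
  rw [add_right_comm, ← sum_add_distrib]
  congr 1
  refine sum_congr rfl fun x _ => ?_
  rw [← mul_add]
  congr 1
  rcases le_total (n x) (n' x) with h | h
  · have : (n x : ℝ) ≤ n' x := by exact_mod_cast h
    rw [min_eq_left h, abs_of_nonpos (by linarith)]; ring
  · have : (n' x : ℝ) ≤ n x := by exact_mod_cast h
    rw [min_eq_right h, abs_of_nonneg (by linarith)]; ring

end Vale.Agent.P304
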