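import Vale.Agent.P304.R2
import Vale.Agent.P304.Tr

/-! From the fractional tree algorithm to virtual configurations. -/

namespace Vale.Agent.P304
open Finset
open scoped Classical

namespace FinAux

noncomputable def sig (x : ℝ) : ℝ := ⨆ n : ℕ, min (n : ℝ) (2 * x - n)

theorem min_le (x : ℝ) (n : ℕ) : min (n : ℝ) (2 * x - n) ≤ x := by
  linarith [min_le_left (n : ℝ) (2 * x - n), min_le_right (n : ℝ) (2 * x - n)]

theorem le_sig (x : ℝ) (n : ℕ) : min (n : ℝ) (2 * x - n) ≤ sig x :=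
  le_ciSup (f := fun n : ℕ => min (n : ℝ) (2 * x - n)) ⟨x, by rintro _ ⟨n, rfl⟩; exact min_le x n⟩ n

theorem sig_le (x : ℝ) : sig x ≤ x := ciSup_le (min_le x)

theorem sig_nonneg {x : ℝ} (h : 0 ≤ x) : 0 ≤ sig x :=
  le_trans (by simpa using h) (le_sig x 0)

theorem sig_lip (x y : ℝ) : sig x ≤ sig y + 2 * |x - y| := ciSup_le fun n => by
  have := le_sig y n
  have := le_abs_self (x - y)
  have := abs_nonneg (x - y)
  simp only [min_def] at *
  split_ifs at * <;> linarith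

theorem sig_mono {x y : ℝ} (h : x ≤ y) : sig x ≤ sig y :=
  ciSup_le fun n => le_trans (min_le_min_left _ (by linarith)) (le_sig y n)

theorem sig_add (x y : ℝ) : sig x + sig y ≤ sig (x + y) := by
  rw [← le_sub_iff_add_le]
  refine ciSup_le fun n => ?_
  rw [le_sub_comm]
  refine ciSup_le fun m => ?_
  have := le_sig (x + y) (n + m)
  push_cast at this
  simp only [min_def] at *
  split_ifs at * <;> linarith

theorem sig_sum {ι : Type*} (s : Finset ι) (f : ι → ℝ) : ∑ i ∈ s, sig (f i) ≤ sig (∑ i ∈ s, f i) := by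
  induction s using Finset.induction_on with
  | empty => simpa using sig_nonneg le_rfl
  | insert a s ha ih => rw [sum_insert ha, sum_insert ha]; linarith [sig_add (f a) (∑ i ∈ s, f i)]

theorem sig_top (k : ℕ) : sig (k + 1 / 2) = k := by
  refine le_antisymm (ciSup_le fun n => ?_) (le_trans (le_min le_rfl (by linarith)) (le_sig _ k))
  rcases le_or_gt n k with h | h
  · exact min_le_of_left_le (by exact_mod_cast h)
  · have : (k : ℝ) + 1 ≤ n := by exact_mod_cast h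
    exact min_le_of_right_le (by linarith)

theorem floor_sub (a b : ℝ) (ha : 0 ≤ a) (hb : 0 ≤ b) : |(⌊a⌋₊ : ℝ) - ⌊b⌋₊| ≤ |a - b| + 1 := by
  have := Nat.floor_le ha
  have := Nat.floor_le hb
  have := Nat.lt_floor_add_one a
  have := Nat.lt_floor_add_one b
  have := le_abs_self (a - b)
  have := neg_abs_le (a - b)
  exact abs_le.2 ⟨by linarith, by linarith⟩

theorem geo4 (a : ℕ) : ∑ l ∈ range (a + 1), (4 : ℝ) ^ l ≤ 2 * 4 ^ a := by
  induction a with
  | zero => norm_num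
  | succ a ih => rw [sum_range_succ, pow_succ]; linarith [pow_pos (by norm_num : (0 : ℝ) < 4) a]

theorem mem_ch {H : Type*} [Fintype H] {L : LTree H} {x y : H} :
    y ∈ L.ch x ↔ y ≠ L.top ∧ L.par y = x := by simp [LTree.ch]

theorem no_ch {H : Type*} [Fintype H] (L : LTree H) {x : H} (h : L.lev x = 0) : L.ch x = ∅ := by
  refine eq_empty_of_forall_notMem fun y hy => ?_
  obtain ⟨h1, h2⟩ := mem_ch.1 hy
  have := L.lev_par y h1
  rw [h2] at this; omega

variable {Ω X : Type*} [Fintype Ω] [Fintype X] [MetricSpace X] {k : ℕ}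
  {P : Prior Ω X k} {C : Scale X} {z : X} {V : Type*} [Fintype V] (T : TreeD P C z V)

theorem lv_le (v : V) : T.lv v ≤ C.J := by
  by_cases h : v = T.root
  · rw [h, T.lv_root]
  · exact (T.lv_lt v h).le

abbrev HH : Type _ := {x : V × ℕ // x.2 ≤ T.lv x.1}

noncomputable instance : Fintype (HH T) :=
  Fintype.subtype ((univ ×ˢ range (C.J + 1)).filter fun x => x.2 ≤ T.lv x.1) fun x => by
    have := lv_le T x.1
    simp only [mem_filter, mem_product, mem_univ, mem_range, true_and, and_iff_right_iff_imp]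
    omega

theorem sum_HH (f : V → ℕ → ℝ) :
    ∑ x : HH T, f x.1.1 x.1.2 = ∑ v, ∑ l ∈ range (T.lv v + 1), f v l := by
  rw [sum_sigma']
  refine sum_bij (fun x _ => (⟨x.1.1, x.1.2⟩ : Σ _ : V, ℕ))
    (fun x _ => mem_sigma.2 ⟨mem_univ _, mem_range.2 (Nat.lt_succ_of_le x.2)⟩)
    (fun x _ y _ h => ?_) (fun x hx => ?_) fun _ _ => rfl
  · simp only [Sigma.mk.injEq, heq_eq_eq] at h
    exact Subtype.ext (Prod.ext h.1 h.2)
  · exact ⟨⟨(x.1, x.2), Nat.le_of_lt_succ (mem_range.1 (mem_sigma.1 hx).2)⟩, mem_univ _, rfl⟩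

theorem top_of {x : HH T} (h1 : ¬ x.1.2 < T.lv x.1.1) (h2 : x.1.1 = T.root) :
    x = ⟨(T.root, C.J), T.lv_root.ge⟩ := by
  refine Subtype.ext (Prod.ext h2 ?_)
  have := x.2
  rw [h2, T.lv_root] at h1 this
  exact le_antisymm this (not_lt.1 h1)

noncomputable def LT : LTree (HH T) where
  top := ⟨(T.root, C.J), T.lv_root.ge⟩
  par x := if h : x.1.2 < T.lv x.1.1 then ⟨(x.1.1, x.1.2 + 1), h⟩ else
    if h' : x.1.1 = T.root then x else ⟨(T.par x.1.1, x.1.2 + 1), x.2.trans_lt (T.lv_par _ h')⟩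
  lev x := x.1.2
  lev_par x hx := by
    split_ifs with h h'
    exacts [rfl, absurd (top_of T h h') hx, rfl]
  lev_lt x hx := by
    by_cases h : x.1.2 < T.lv x.1.1
    · exact h.trans_le (lv_le T _)
    · exact x.2.trans_lt (T.lv_lt _ fun h' => hx (top_of T h h'))

theorem par_cases (x : HH T) : ((LT T).par x).1.1 = x.1.1 ∨
    (x.1.1 ≠ T.root ∧ x.1.2 = T.lv x.1.1 ∧ ((LT T).par x).1.1 = T.par x.1.1) := by
  simp only [LT]
  split_ifs with h h'
  · exact Or.inl rfl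
  · exact Or.inl rfl
  · exact Or.inr ⟨h', le_antisymm x.2 (not_lt.1 h), rfl⟩

theorem idle_succ {n : HH T → ℕ} (hn : (LT T).Sup n) (v : V) (l : ℕ) (h : l + 1 ≤ T.lv v) :
    (LT T).idle n ⟨(v, l + 1), h⟩ + n ⟨(v, l), Nat.le_of_succ_le h⟩ ≤
      n ⟨(v, l + 1), h⟩ := by
  have h1 : (⟨(v, l), Nat.le_of_succ_le h⟩ : HH T) ∈ (LT T).ch ⟨(v, l + 1), h⟩ := by
    refine mem_ch.2 ⟨fun e => ?_, dif_pos h⟩
    have := lv_le T v
    have : l = C.J := congrArg (fun x : HH T => x.1.2) e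
    omega
  have h2 := single_le_sum (f := n) (fun _ _ => Nat.zero_le _) h1
  have h3 := hn ⟨(v, l + 1), h⟩
  unfold LTree.idle; omega

theorem idle_sum {n : HH T → ℕ} (hn : (LT T).Sup n) (d : V → ℝ) (hd : ∀ v, 0 ≤ d v) :
    ∑ x, (LT T).idle n x * d x.1.1 ≤ ∑ v, n ⟨(v, T.lv v), le_rfl⟩ * d v := by
  have := sum_HH T fun v l => (if h : l ≤ T.lv v then ((LT T).idle n ⟨(v, l), h⟩ : ℝ) else 0) * d v
  refine ((sum_congr rfl fun x _ => by rw [dif_pos x.2]).trans this).trans_le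
    (sum_le_sum fun v _ => ?_)
  rw [← sum_mul]
  refine mul_le_mul_of_nonneg_right ?_ (hd v)
  have : ∀ l (h : l ≤ T.lv v), ∑ l ∈ range (l + 1),
      (if h : l ≤ T.lv v then ((LT T).idle n ⟨(v, l), h⟩ : ℝ) else 0) ≤ n ⟨(v, l), h⟩ := by
    intro l h
    induction l with
    | zero => simpa [LTree.idle] using Nat.cast_le.2 (Nat.sub_le _ _)
    | succ l ih =>
      rw [sum_range_succ, dif_pos h]
      have h1 := ih (by omega)
      have h2 := (Nat.cast_le (α := ℝ)).2 (idle_succ T hn v l h)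
      push_cast at h2
      linarith
  exact this _ le_rfl

variable (ν : V → List X → ℝ)

noncomputable def ms (h : List X) (v : V) (l : ℕ) : ℝ :=
  ν v h - ∑ u with u ≠ T.root ∧ T.par u = v, ind (l ≤ T.lv u) * ν u h

noncomputable def YY (G : ℕ) (h : List X) (x : HH T) : ℕ :=
  ⌊G * sig ((1 + 1 / (2 * k)) * ms T ν h x.1.1 x.1.2)⌋₊

variable {T ν} {G : ℕ} {h : List X}

theorem ms_le (F : Frac T ν) (h : List X) (v : V) (l : ℕ) : ms T ν h v l ≤ ν v h :=
  sub_le_self _ (sum_nonneg fun u _ => mul_nonneg (ind_nonneg _) (F.nonneg u h))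

theorem le_ms (F : Frac T ν) (h : List X) (v : V) (l : ℕ) :
    ν v h - ∑ u with u ≠ T.root ∧ T.par u = v, ν u h ≤ ms T ν h v l :=
  sub_le_sub_left (sum_le_sum fun u _ => mul_le_of_le_one_left (F.nonneg u h) (ind_le_one _)) _

theorem ms_nonneg (F : Frac T ν) (hv : P.Valid h) (v : V) (l : ℕ) : 0 ≤ ms T ν h v l :=
  (sub_nonneg.2 (F.sup v h hv)).trans (le_ms F h v l)

theorem ms_sup (F : Frac T ν) (hv : P.Valid h) (x : HH T) :
    ∑ y ∈ (LT T).ch x, ms T ν h y.1.1 y.1.2 ≤ ms T ν h x.1.1 x.1.2 := by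
  obtain ⟨⟨v, l⟩, hx⟩ := x
  have hl : ∀ y ∈ (LT T).ch ⟨(v, l), hx⟩, l = y.1.2 + 1 := fun y hy => by
    obtain ⟨h1, h2⟩ := mem_ch.1 hy
    have := (LT T).lev_par y h1
    rwa [h2] at this
  cases l with
  | zero => rw [no_ch _ rfl]; exact ms_nonneg F hv _ _
  | succ l =>
    have h1 : ∑ y ∈ (LT T).ch ⟨(v, l + 1), hx⟩, ms T ν h y.1.1 y.1.2 ≤
        ∑ u ∈ insert v ({u | (u ≠ T.root ∧ T.par u = v) ∧ T.lv u = l} : Finset V),
          ms T ν h u l := by
      rw [sum_congr rfl fun y hy => show _ = ms T ν h y.1.1 l by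
        rw [← Nat.succ_injective (hl y hy)], ← sum_image (f := fun u => ms T ν h u l)
        (g := fun y : HH T => y.1.1) fun y hy y' hy' e => Subtype.ext (Prod.ext e (by
          have := hl y hy; have := hl y' hy'; omega))]
      refine sum_le_sum_of_subset_of_nonneg (fun u hu => ?_) fun u _ _ => ms_nonneg F hv _ _
      obtain ⟨y, hy, rfl⟩ := mem_image.1 hu
      obtain ⟨h1, h2⟩ := mem_ch.1 hy
      have h3 := hl y hy
      rcases par_cases T y with h4 | ⟨h4, h5, h6⟩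
      · rw [h2] at h4; exact mem_insert.2 (Or.inl h4.symm)
      · rw [h2] at h6
        exact mem_insert_of_mem (mem_filter.2 ⟨mem_univ _, ⟨h4, h6.symm⟩, by omega⟩)
    rw [sum_insert (fun hc => by have := (mem_filter.1 hc).2.2; simp only at hx; omega)] at h1
    have h2 := sum_le_sum fun u (_ : u ∈ ({u | (u ≠ T.root ∧ T.par u = v) ∧ T.lv u = l} :
      Finset V)) => ms_le F h u l
    rw [← filter_filter] at h2
    have h3 : ∑ u with u ≠ T.root ∧ T.par u = v, ind (l ≤ T.lv u) * ν u h =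
        ∑ u with u ≠ T.root ∧ T.par u = v, (ind (l + 1 ≤ T.lv u) * ν u h +
          if T.lv u = l then ν u h else 0) := sum_congr rfl fun u _ => by
      unfold ind; split_ifs <;> first | omega | simp
    rw [← filter_filter] at h1
    rw [sum_add_distrib, ← sum_filter] at h3
    simp only [ms] at h1 h2 ⊢
    linarith

theorem arg_nonneg (F : Frac T ν) (hv : P.Valid h) (v : V) (l : ℕ) :
    0 ≤ G * sig ((1 + 1 / (2 * k)) * ms T ν h v l) :=
  mul_nonneg G.cast_nonneg (sig_nonneg (mul_nonneg (by positivity) (ms_nonneg F hv v l)))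

theorem YY_sup (F : Frac T ν) (hv : P.Valid h) : (LT T).Sup (YY T ν G h) := fun x => by
  refine Nat.le_floor ?_
  push_cast
  refine (sum_le_sum fun y _ => Nat.floor_le (arg_nonneg F hv _ _)).trans ?_
  rw [← mul_sum]
  refine mul_le_mul_of_nonneg_left ((sig_sum _ _).trans (sig_mono ?_)) G.cast_nonneg
  rw [← mul_sum]
  exact mul_le_mul_of_nonneg_left (ms_sup F hv x) (by positivity)

theorem YY_k (hk : 2 ≤ k) {x : HH T} (e : ms T ν h x.1.1 x.1.2 = k) : YY T ν G h x = G * k := by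
  have : (1 + 1 / (2 * k : ℝ)) * k = k + 1 / 2 := by field_simp
  rw [YY, e, this, sig_top, ← Nat.cast_mul, Nat.floor_natCast]

theorem YY_top (hk : 2 ≤ k) (F : Frac T ν) (h : List X) : YY T ν G h (LT T).top = G * k := by
  refine YY_k hk ?_
  rw [ms, sum_eq_zero fun u hu => ?_, sub_zero]
  · exact F.root h
  · exact mul_eq_zero_of_left (ind_neg (not_le.2 (T.lv_lt u (mem_filter.1 hu).2.1))) _

theorem YY_nil (hk : 2 ≤ k) (F : Frac T ν) (x : HH T) :
    YY T ν G [] x = G * if x.1.1 = T.root then k else 0 := by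
  have e : ms T ν [] x.1.1 x.1.2 = ν x.1.1 [] := by
    rw [ms, sum_eq_zero fun u hu => by rw [F.nil u (mem_filter.1 hu).2.1, mul_zero], sub_zero]
  split_ifs with hx
  · exact YY_k hk (by rw [e, hx, F.root])
  · rw [YY, e, F.nil _ hx, mul_zero, le_antisymm (sig_le 0) (sig_nonneg le_rfl)]; simp

theorem YY_le (hk : 2 ≤ k) (F : Frac T ν) (hv : P.Valid h) (x : HH T) :
    (YY T ν G h x : ℝ) ≤ G * (3 / 2 * P.mu h fun y => ind (T.S x.1.1 h y)) := by
  refine (Nat.floor_le (arg_nonneg F hv _ _)).trans (mul_le_mul_of_nonneg_left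
    ((sig_le _).trans (mul_le_mul ?_ ((ms_le F h _ _).trans (F.le_mu _ h hv))
      (ms_nonneg F hv _ _) (by norm_num))) G.cast_nonneg)
  have : (2 : ℝ) ≤ k := by exact_mod_cast hk
  have : 1 / (2 * k : ℝ) ≤ 1 / 2 := by gcongr; linarith
  linarith

theorem YY_tv (hk : 2 ≤ k) (F : Frac T ν) {h' : List X} (hv : P.Valid h) (hv' : P.Valid h') :
    ∑ x, (4 : ℝ) ^ (LT T).lev x * |(YY T ν G h x : ℝ) - YY T ν G h' x| ≤
      12 * G * ∑ u ∈ univ.erase T.root, 4 ^ T.lv u * |ν u h - ν u h'| +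
        ∑ x, 4 ^ (LT T).lev x := by
  have hc : 1 + 1 / (2 * k : ℝ) ≤ 3 / 2 := by
    have : (2 : ℝ) ≤ k := by exact_mod_cast hk
    have : 1 / (2 * k : ℝ) ≤ 1 / 2 := by gcongr; linarith
    linarith
  have h1 : ∀ x : HH T, |(YY T ν G h x : ℝ) - YY T ν G h' x| ≤ 3 * G * (|ν x.1.1 h - ν x.1.1 h'| +
      ∑ u with u ≠ T.root ∧ T.par u = x.1.1, ind (x.1.2 ≤ T.lv u) * |ν u h - ν u h'|) + 1 := by
    intro x
    refine (floor_sub _ _ (arg_nonneg F hv _ _) (arg_nonneg F hv' _ _)).trans ?_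
    have k1 : |ms T ν h x.1.1 x.1.2 - ms T ν h' x.1.1 x.1.2| ≤ |ν x.1.1 h - ν x.1.1 h'| +
        ∑ u with u ≠ T.root ∧ T.par u = x.1.1, ind (x.1.2 ≤ T.lv u) * |ν u h - ν u h'| := by
      rw [ms, ms, sub_sub_sub_comm, ← sum_sub_distrib]
      refine (abs_sub _ _).trans (add_le_add_right ((abs_sum_le_sum_abs _ _).trans
        (sum_le_sum fun u _ => ?_)) _)
      rw [← mul_sub, abs_mul, abs_of_nonneg (ind_nonneg _)]
    generalize ms T ν h x.1.1 x.1.2 = a at k1
    generalize ms T ν h' x.1.1 x.1.2 = b at k1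
    have k2 := sig_lip ((1 + 1 / (2 * k)) * a) ((1 + 1 / (2 * k)) * b)
    have k3 := sig_lip ((1 + 1 / (2 * k)) * b) ((1 + 1 / (2 * k)) * a)
    rw [abs_sub_comm] at k3
    rw [← mul_sub, abs_mul, abs_of_nonneg (by positivity)] at k2 k3
    have k4 := mul_le_mul_of_nonneg_right hc (abs_nonneg (a - b))
    rw [← mul_sub, abs_mul, Nat.abs_cast, mul_comm 3, mul_assoc]
    gcongr
    exact abs_le.2 ⟨by linarith, by linarith⟩
  refine (sum_le_sum fun x _ => mul_le_mul_of_nonneg_left (h1 x) (by positivity)).trans ?_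
  simp only [mul_add _ _ (1 : ℝ), mul_one, sum_add_distrib, mul_left_comm _ (3 * G : ℝ), ← mul_sum]
  rw [show (12 * G : ℝ) = 3 * G * 4 by ring, mul_assoc (3 * G : ℝ)]
  gcongr
  refine (sum_HH T fun v l => 4 ^ l * (|ν v h - ν v h'| +
    ∑ u with u ≠ T.root ∧ T.par u = v, ind (l ≤ T.lv u) * |ν u h - ν u h'|)).trans_le ?_
  have h2 : ∑ v, ∑ l ∈ range (T.lv v + 1), 4 ^ l * |ν v h - ν v h'| ≤
      2 * ∑ u ∈ univ.erase T.root, 4 ^ T.lv u * |ν u h - ν u h'| := by
    rw [← sum_erase (a := T.root) _ (by simp [F.root]), mul_sum]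
    refine sum_le_sum fun v _ => ?_
    rw [← sum_mul, ← mul_assoc]
    exact mul_le_mul_of_nonneg_right (geo4 _) (abs_nonneg _)
  have h3 : ∑ v, ∑ l ∈ range (T.lv v + 1), 4 ^ l *
      ∑ u with u ≠ T.root ∧ T.par u = v, ind (l ≤ T.lv u) * |ν u h - ν u h'| ≤
      2 * ∑ u ∈ univ.erase T.root, 4 ^ T.lv u * |ν u h - ν u h'| := by
    rw [← sum_fiberwise (univ.erase T.root) T.par, mul_sum]
    refine sum_le_sum fun v _ => ?_
    simp only [mul_sum]
    rw [sum_comm]
    refine (sum_le_sum fun u _ => ?_).trans (le_of_eq (sum_congr (by ext; simp) fun _ _ => rfl))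
    simp only [← mul_assoc, ← sum_mul]
    refine mul_le_mul_of_nonneg_right (le_trans ?_ (geo4 _)) (abs_nonneg _)
    simp only [ind, mul_ite, mul_one, mul_zero, ← sum_filter]
    exact sum_le_sum_of_subset_of_nonneg
      (fun l hl => mem_range.2 (Nat.lt_succ_of_le (mem_filter.1 hl).2)) fun _ _ _ => by positivity
  simp only [mul_add, sum_add_distrib]
  linarith

theorem geoW (hk : 2 ≤ k) (F : Frac T ν) (hv : P.Valid h) {n : Fin G → HH T → ℕ}
    (hn : (LT T).Bal n (YY T ν G h)) (g : Fin G) (x : HH T) (hx : x ≠ (LT T).top)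
    (h0 : 0 < n g x) :
    dist (T.c x.1.1 h) (T.c ((LT T).par x).1.1 h) ≤ 5 * C.sc ((LT T).lev x) := by
  rcases par_cases T x with e | ⟨e1, e2, e3⟩
  · have := C.sc_pos ((LT T).lev x)
    rw [e, dist_self]; positivity
  · by_contra hc
    have h1 : ∀ y, ind (T.S x.1.1 h y) ≤ 0 := fun y => (ind_neg fun hy =>
      hc (by rw [e3]; exact (T.geo _ h y e1 hy).trans (by rw [← e2]; rfl))).le
    have h2 := P.mu_mono h h1
    rw [P.mu_const hv, mul_zero] at h2
    have h3 := YY_le (G := G) hk F hv x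
    have h4 := single_le_sum (f := fun g => n g x) (fun _ _ => Nat.zero_le _) (mem_univ g)
    rw [hn.2.1] at h4
    have h5 : (0 : ℝ) < YY T ν G h x := by exact_mod_cast h0.trans_le h4
    nlinarith [(G.cast_nonneg : (0 : ℝ) ≤ G)]

theorem serve (hk : 2 ≤ k) (F : Frac T ν) {r : X} (hv : P.Valid (r :: h)) {n : Fin G → HH T → ℕ}
    (hn : (LT T).Bal n (YY T ν G (r :: h))) (g : Fin G) :
    r ∈ (LT T).conf (n g) fun x => T.c x.1.1 (r :: h) := by
  obtain ⟨v, h1, h2, h3⟩ := T.req r h hv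
  refine Multiset.mem_sum.2 ⟨⟨(v, 0), Nat.zero_le _⟩, mem_univ _,
    Multiset.mem_replicate.2 ⟨fun h0 => ?_, h3.symm⟩⟩
  rw [LTree.idle, no_ch _ rfl, sum_empty, Nat.sub_zero] at h0
  have h4 : G ≤ YY T ν G (r :: h) ⟨(v, 0), Nat.zero_le _⟩ := by
    refine Nat.le_floor (le_mul_of_one_le_right G.cast_nonneg (le_trans ?_ (le_sig _ 1)))
    have k1 := F.req v r h hv h1 h2
    have k2 := le_ms F (r :: h) v 0
    have k3 : (2 : ℝ) ≤ k := by exact_mod_cast hk
    have k4 : 1 ≤ (1 + 1 / (2 * k : ℝ)) * (1 - 1 / (3 * k)) := by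
      field_simp; nlinarith
    have k5 := mul_le_mul_of_nonneg_left (show 1 - 1 / (3 * k : ℝ) ≤ ms T ν (r :: h) v 0 by linarith)
      (by positivity : 0 ≤ 1 + 1 / (2 * k : ℝ))
    push_cast
    exact le_min le_rfl (by linarith)
  rw [← hn.2.1] at h4
  have h5 := sum_lt_sum (s := univ) (f := fun g => n g ⟨(v, 0), Nat.zero_le _⟩) (g := fun _ => 1)
    (fun g' _ => (hn.2.2 _ g' g).trans (by rw [h0])) ⟨g, mem_univ _, by simp [h0]⟩
  simp only [sum_const, card_univ, Fintype.card_fin, smul_eq_mul, mul_one] at h5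
  omega

end FinAux
open FinAux

theorem Frac.virt {Ω X : Type*} [Fintype Ω] [Fintype X] [MetricSpace X] {k : ℕ} (hk : 2 ≤ k)
    {P : Prior Ω X k} {C : Scale X} {z : X} {V : Type*} [Fintype V] {T : TreeD P C z V}
    {ν : V → List X → ℝ} (F : Frac T ν) :
    ∃ q : List X → Fin k → X, (∀ a, q [] a = z) ∧
      (∀ ω t, ∃ a, q (P.hist ω (t + 1)) a = P.r ω t) ∧
      P.ET (fun ω t => ∑ a, dist (q (P.hist ω t) a) (q (P.hist ω (t + 1)) a)) ≤
        10 ^ 17 * Real.log k ^ 4 * (P.Opt + P.B0 z) + 1 := by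
  obtain ⟨G, hG⟩ := exists_nat_gt (P.T * (250 * C.h0 * ∑ x, (4 : ℝ) ^ (LT T).lev x))
  have hh := C.pos
  have hG0 : (0 : ℝ) < G := lt_of_le_of_lt (by positivity) hG
  have hG1 : 0 < G := by exact_mod_cast hG0
  have : ∀ (n : Fin G → HH T → ℕ) (h h' : List X), ∃ n' : Fin G → HH T → ℕ,
      (LT T).Bal n (YY T ν G h) → P.Valid h' → (LT T).Bal n' (YY T ν G h') ∧
      (∀ g, n' g (LT T).top = n g (LT T).top) ∧
      ∑ x, (4 : ℝ) ^ (LT T).lev x * ∑ g, |(n g x : ℝ) - n' g x| ≤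
        50 * ∑ x, (4 : ℝ) ^ (LT T).lev x * |(YY T ν G h x : ℝ) - YY T ν G h' x| := fun n h h' => by
    by_cases H : (LT T).Bal n (YY T ν G h) ∧ P.Valid h'
    · exact ((LT T).round hG1 H.1 (YY_sup F H.2) (by rw [YY_top hk F, YY_top hk F])).imp
        fun _ h _ _ => h
    · exact ⟨n, fun h1 h2 => absurd ⟨h1, h2⟩ H⟩
  choose nx hnx using this
  let nn : List X → Fin G → HH T → ℕ := fun h => List.rec
    (fun _ x => if x.1.1 = T.root then k else 0) (fun r h n => nx n h (r :: h)) h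
  have hB : ∀ ω t, (LT T).Bal (nn (P.hist ω t)) (YY T ν G (P.hist ω t)) := fun ω t => by
    induction t with
    | zero =>
      refine ⟨fun g x => ?_, fun x => ?_, fun _ _ _ => Nat.le_succ _⟩
      · have := YY_sup (G := G) F (P.valid_hist ω 0) x
        simp only [Prior.hist, YY_nil hk F, ← mul_sum] at this
        exact Nat.le_of_mul_le_mul_left this hG1
      · simp [Prior.hist, YY_nil hk F, nn]
    | succ t ih => exact (hnx _ _ _ ih (P.valid_hist ω (t + 1))).1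
  have hC := fun ω t => (hnx _ _ _ (hB ω t) (P.valid_hist ω (t + 1))).2
  let cf : Fin G → List X → Multiset X := fun g h => (LT T).conf (nn h g) fun x => T.c x.1.1 h
  let bd : Fin G → List X → List X → ℝ := fun g h h' =>
    ∑ x : HH T, 5 * C.sc ((LT T).lev x) * |(Nat.cast (nn h g x) : ℝ) - Nat.cast (nn h' g x)| +
      ∑ v : V, Nat.cast (nn h' g ⟨(v, T.lv v), le_refl (T.lv v)⟩) * dist (T.c v h) (T.c v h')
  have : ∀ g (q : Fin k → X) (h h' : List X), ∃ q' : Fin k → X,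
      (∃ ω t, h = P.hist ω t ∧ h' = P.hist ω (t + 1)) → univ.val.map q = cf g h →
      univ.val.map q' = cf g h' ∧ ∑ a, dist (q a) (q' a) ≤ bd g h h' := fun g q h h' => by
    by_cases H : (∃ ω t, h = P.hist ω t ∧ h' = P.hist ω (t + 1)) ∧ univ.val.map q = cf g h
    · obtain ⟨⟨ω, t, rfl, rfl⟩, H⟩ := H
      have s1 := (hB ω t).1 g
      have s2 := (hB ω (t + 1)).1 g
      obtain ⟨q', h1, h2⟩ := (LT T).transport s1 s2
        ((hC ω t).1 g).symm (W := fun x => 5 * C.sc ((LT T).lev x))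
        (fun x => by have := C.sc_pos ((LT T).lev x); positivity)
        (geoW hk F (P.valid_hist ω t) (hB ω t) g)
        (geoW hk F (P.valid_hist ω (t + 1)) (hB ω (t + 1)) g) q H
      refine ⟨q', fun _ _ => ⟨h1, h2.trans (add_le_add_right ((idle_sum T (fun x => ?_)
        (fun v => dist (T.c v (P.hist ω t)) (T.c v (P.hist ω (t + 1))))
        fun _ => dist_nonneg).trans (sum_le_sum fun v _ => ?_)) _)⟩⟩
      · exact le_min ((sum_le_sum fun _ _ => min_le_left _ _).trans (s1 x))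
          ((sum_le_sum fun _ _ => min_le_right _ _).trans (s2 x))
      · exact mul_le_mul_of_nonneg_right (Nat.cast_le.2 (min_le_right _ _)) dist_nonneg
    · exact ⟨q, fun h1 h2 => absurd ⟨h1, h2⟩ H⟩
  choose qx hqx using this
  let qq : Fin G → List X → Fin k → X := fun g h => List.rec
    (fun _ => z) (fun r h q => qx g q h (r :: h)) h
  have hQ : ∀ g ω t, univ.val.map (qq g (P.hist ω t)) = cf g (P.hist ω t) := fun g ω t => by
    induction t with
    | zero =>
      have s1 := (hB ω 0).1 g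
      change _ = ∑ x, _
      rw [sum_eq_single (⟨(T.root, 0), Nat.zero_le _⟩ : HH T) (fun x _ hx => ?_) (by simp)]
      · rw [LTree.idle, no_ch _ rfl]
        simp [qq, nn, Prior.hist, T.c_nil]
      · obtain ⟨⟨v, l⟩, hl⟩ := x
        suffices h : (LT T).idle (nn (P.hist ω 0) g) ⟨(v, l), hl⟩ = 0 by rw [h]; rfl
        by_cases hv : v = T.root
        · subst hv
          cases l with
          | zero => exact absurd rfl hx
          | succ l => simpa [nn, Prior.hist] using idle_succ T s1 _ l hl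
        · simp [LTree.idle, nn, Prior.hist, hv]
    | succ t ih => exact (hqx g _ _ _ ⟨ω, t, rfl, rfl⟩ ih).1
  have hD := fun g ω t => (hqx g _ _ _ ⟨ω, t, rfl, rfl⟩ (hQ g ω t)).2
  obtain ⟨g, -, hg⟩ := exists_min_image univ (fun g => P.ET fun ω t =>
    ∑ a, dist (qq g (P.hist ω t) a) (qq g (P.hist ω (t + 1)) a)) ⟨⟨0, hG1⟩, mem_univ _⟩
  refine ⟨qq g, fun _ => rfl, fun ω t => ?_, ?_⟩
  · have : P.r ω t ∈ cf g (P.hist ω (t + 1)) :=
      serve hk F (P.valid_hist ω (t + 1)) (hB ω (t + 1)) g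
    obtain ⟨a, -, ha⟩ := Multiset.mem_map.1 ((hQ g ω (t + 1)).symm ▸ this)
    exact ⟨a, ha⟩
  have h1 := sum_le_sum hg
  rw [sum_const, card_univ, Fintype.card_fin, nsmul_eq_mul, ← P.ET_sum] at h1
  have h2 := h1.trans (P.ET_mono (g := fun ω t => 3000 * G * ∑ u ∈ univ.erase T.root,
      C.sc (T.lv u) * |ν u (P.hist ω t) - ν u (P.hist ω (t + 1))| +
      250 * C.h0 * ∑ x, (4 : ℝ) ^ (LT T).lev x + 3 / 2 * G * ∑ v,
      P.mu (P.hist ω (t + 1)) (fun y => ind (T.S v (P.hist ω (t + 1)) y)) *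
        dist (T.c v (P.hist ω t)) (T.c v (P.hist ω (t + 1)))) fun ω t => by
    refine (sum_le_sum fun g _ => hD g ω t).trans ?_
    simp only [bd, sum_add_distrib]
    refine add_le_add ?_ ?_
    · have k1 := (hC ω t).2
      have k2 := YY_tv (G := G) hk F (P.valid_hist ω t) (P.valid_hist ω (t + 1))
      have k3 := mul_le_mul_of_nonneg_left
        (k1.trans (mul_le_mul_of_nonneg_left k2 (by norm_num))) (by positivity : 0 ≤ 5 * C.h0)
      rw [sum_comm]
      simp only [Scale.sc, mul_assoc, ← mul_sum] at k3 ⊢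
      exact k3.trans (le_of_eq (by ring))
    · rw [sum_comm, mul_sum]
      refine sum_le_sum fun v _ => ?_
      rw [← sum_mul, ← Nat.cast_sum, (hB ω (t + 1)).2.1, ← mul_assoc]
      exact mul_le_mul_of_nonneg_right
        ((YY_le hk F (P.valid_hist ω (t + 1)) _).trans (le_of_eq (by ring))) dist_nonneg)
  simp only [P.ET_add, P.ET_mul, P.ET_sum, P.ET_const] at h2
  have h3 := sum_le_sum fun u (hu : u ∈ univ.erase T.root) =>
    mul_le_mul_of_nonneg_left (F.cst u (ne_of_mem_erase hu)) (C.sc_pos (T.lv u)).le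
  simp only [mul_left_comm (C.sc _), ← mul_sum] at h3
  have h4 := T.cst
  have h5 : 0 ≤ ∑ v ∈ univ.erase T.root, C.sc (T.lv v) * P.cross (T.S v) :=
    sum_nonneg fun v _ => mul_nonneg (C.sc_pos _).le (P.cross_nonneg _)
  have h6 : 0 ≤ ∑ v, P.drag (T.S v) (T.c v) := sum_nonneg fun v _ => P.drag_nonneg _ _
  have h7 : (0.4 : ℝ) ≤ Real.log k ^ 2 := by nlinarith [log_ge hk]
  have h8 := mul_le_mul_of_nonneg_left h4 (sq_nonneg (Real.log k))
  have h9 := mul_le_mul_of_nonneg_right h7 h6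
  have h10 := mul_nonneg (sq_nonneg (Real.log k)) h5
  have h11 := mul_nonneg (sq_nonneg (Real.log k)) h6
  refine le_of_mul_le_mul_left ?_ hG0
  rw [P.ET_sum]
  refine h2.trans ?_
  have h12 : ∀ {a b c : ℝ}, 3000 * a + 3 / 2 * b ≤ c →
      3000 * G * a + 250 * C.h0 * ∑ x, P.T * (4 : ℝ) ^ (LT T).lev x + 3 / 2 * G * b ≤
        G * (c + 1) := fun h => by rw [← mul_sum]; nlinarith
  refine h12 ?_
  simp only [Prior.drag] at h8 h9 h11
  linarith

end Vale.Agent.P304
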