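import Vale.Agent.P304.Basic

/-! Minimax, behavioural form and compactness. -/

namespace Vale.Agent.P304
open Finset
open scoped Classical

universe u

namespace MMAux

/-- finite minimax through separation -/
theorem sep {ι A : Type*} [Fintype ι] [Nonempty A] (v : A → ι → ℝ)
    (H : ∀ l : ι → ℝ, (∀ i, 0 ≤ l i) → ∑ i, l i = 1 → ∃ a, ∑ i, l i * v a i ≤ 0) :
    ∃ x ∈ convexHull ℝ (Set.range v), ∀ i, x i < 1 := by
  by_contra hc
  push Not at hc
  have hO : Convex ℝ {x : ι → ℝ | ∀ i, x i < 1} := by
    have : {x : ι → ℝ | ∀ i, x i < 1} = Set.pi Set.univ fun _ => Set.Iio 1 := by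
      ext x; simp
    rw [this]; exact convex_pi fun _ _ => convex_Iio 1
  have hO' : IsOpen {x : ι → ℝ | ∀ i, x i < 1} := by
    have : {x : ι → ℝ | ∀ i, x i < 1} = ⋂ i, {x : ι → ℝ | x i < 1} := by
      ext x; simp
    rw [this]
    exact isOpen_iInter_of_finite fun i => isOpen_lt (continuous_apply i) continuous_const
  obtain ⟨f, u, h1, h2⟩ := geometric_hahn_banach_open hO hO' (convex_convexHull ℝ (Set.range v))
    (Set.disjoint_left.2 fun x hx hx' => by
      obtain ⟨i, hi⟩ := hc x hx'
      exact absurd (hx i) (not_lt.2 hi))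
  set l : ι → ℝ := fun i => f (Pi.single i 1) with hl
  have hf : ∀ x, f x = ∑ i, l i * x i := by
    intro x
    conv_lhs => rw [← univ_sum_single x]
    rw [map_sum]
    refine sum_congr rfl fun i _ => ?_
    have : (Pi.single i (x i) : ι → ℝ) = x i • (Pi.single i 1 : ι → ℝ) := by
      rw [← Pi.single_smul]; simp
    rw [this, map_smul, smul_eq_mul, mul_comm]
  have hu : 0 < u := by simpa using h1 0 fun i => by simp
  have hl0 : ∀ i, 0 ≤ l i := by
    intro i
    by_contra hn
    push Not at hn
    have := h1 ((u / l i) • (Pi.single i 1 : ι → ℝ)) fun j => by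
      have hneg : u / l i < 0 := div_neg_of_pos_of_neg hu hn
      by_cases e : j = i
      · subst e; simp; linarith
      · simp [Pi.single_eq_of_ne e]
    rw [map_smul, smul_eq_mul] at this
    change u / l i * l i < u at this
    rw [div_mul_cancel₀ _ hn.ne] at this
    exact lt_irrefl _ this
  have hv : ∀ a, u ≤ ∑ i, l i * v a i := fun a => by
    rw [← hf]; exact h2 _ (subset_convexHull ℝ _ ⟨a, rfl⟩)
  have hS : 0 < ∑ i, l i := by
    refine lt_of_le_of_ne (sum_nonneg fun i _ => hl0 i) fun e => ?_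
    have h0 := (sum_eq_zero_iff_of_nonneg fun i _ => hl0 i).1 e.symm
    have := hv (Classical.arbitrary A)
    rw [sum_eq_zero fun i hi => by rw [h0 i hi, zero_mul]] at this
    linarith
  obtain ⟨a, ha⟩ := H (fun i => l i / ∑ j, l j) (fun i => div_nonneg (hl0 i) hS.le)
    (by rw [← sum_div, div_self hS.ne'])
  simp only [div_mul_eq_mul_div, ← sum_div] at ha
  have := div_pos (hu.trans_le (hv a)) hS
  linarith

variable {X : Type u} [MetricSpace X] {k : ℕ}

/-- the history is the one produced by the deterministic policy -/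
def cons (π : List (X × Fin k) → X → Fin k) : List (X × Fin k) → Prop
  | [] => True
  | (r, i) :: h => π h r = i ∧ cons π h

section Kuhn
variable {J : Type*} [Fintype J] (w : J → ℝ) (π : J → List (X × Fin k) → X → Fin k)

noncomputable def wt (h : List (X × Fin k)) : ℝ := ∑ j, w j * ind (cons (π j) h)

omit [MetricSpace X] in
theorem sum_ind (p : List (X × Fin k) → X → Fin k) (h : List (X × Fin k)) (r : X)
    (g : Fin k → ℝ) : ∑ i, ind (cons p ((r, i) :: h)) * g i = ind (cons p h) * g (p h r) := by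
  rw [sum_eq_single (p h r)]
  · simp [cons]
  · intro i _ hi
    rw [ind_neg, zero_mul]
    exact fun e => hi e.1.symm
  · simp

omit [MetricSpace X] in
theorem wt_nonneg (hw : ∀ j, 0 ≤ w j) (h : List (X × Fin k)) : 0 ≤ wt w π h :=
  sum_nonneg fun j _ => mul_nonneg (hw j) (ind_nonneg _)

omit [MetricSpace X] in
theorem wt_sum (h : List (X × Fin k)) (r : X) : ∑ i, wt w π ((r, i) :: h) = wt w π h := by
  unfold wt
  rw [sum_comm]
  refine sum_congr rfl fun j _ => ?_
  rw [← mul_sum]
  have := sum_ind (π j) h r fun _ => 1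
  simp only [mul_one] at this
  rw [this]

/-- behavioural form of a mixture -/
noncomputable def mix (hk : 0 < k) (hw : ∀ j, 0 ≤ w j) : Policy X k where
  prob h r i := if wt w π h = 0 then 1 / k else wt w π ((r, i) :: h) / wt w π h
  nonneg h r i := by
    split_ifs
    · positivity
    · exact div_nonneg (wt_nonneg w π hw _) (wt_nonneg w π hw _)
  sum_one h r := by
    split_ifs with e
    · have : (k : ℝ) ≠ 0 := by positivity
      simp [this]
    · rw [← sum_div, wt_sum, div_self e]

omit [MetricSpace X] in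
theorem wt_prob (hk : 0 < k) (hw : ∀ j, 0 ≤ w j) (h : List (X × Fin k)) (r : X) (i : Fin k) :
    wt w π h * (mix w π hk hw).prob h r i = wt w π ((r, i) :: h) := by
  simp only [mix]
  split_ifs with e
  · rw [e, zero_mul]
    have h1 := wt_sum w π h r
    rw [e] at h1
    exact ((sum_eq_zero_iff_of_nonneg fun i _ => wt_nonneg w π hw _).1 h1 i (mem_univ _)).symm
  · field_simp

theorem kuhn (hk : 0 < k) (hw : ∀ j, 0 ≤ w j) (σ : List X) : ∀ (h : List (X × Fin k))
    (s : Fin k → X), wt w π h * ecost (mix w π hk hw) h s σ =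
      ∑ j, w j * (ind (cons (π j) h) * dcost (π j) h s σ) := by
  induction σ with
  | nil => intro h s; simp [ecost, dcost]
  | cons r σ ih =>
    intro h s
    simp only [ecost, dcost, mul_sum, ← mul_assoc, wt_prob]
    simp only [mul_add (wt w π _), ih]
    simp only [mul_assoc]
    have e : ∀ j, ind (cons (π j) h) * (dist (s (π j h r)) r +
        dcost (π j) ((r, π j h r) :: h) (Function.update s (π j h r) r) σ) =
        ∑ i, ind (cons (π j) ((r, i) :: h)) * (dist (s i) r +
          dcost (π j) ((r, i) :: h) (Function.update s i r) σ) := fun j =>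
      (sum_ind (π j) h r fun i => dist (s i) r +
          dcost (π j) ((r, i) :: h) (Function.update s i r) σ).symm
    simp only [e, mul_sum]
    rw [sum_comm (s := (univ : Finset J))]
    refine sum_congr rfl fun i _ => ?_
    rw [wt, sum_mul, ← sum_add_distrib]
    exact sum_congr rfl fun j _ => by ring

end Kuhn

/-- expected cost as a function of the raw probabilities -/
def ec (f : List (X × Fin k) → X → Fin k → ℝ) : List (X × Fin k) → (Fin k → X) → List X → ℝ
  | _, _, [] => 0
  | h, s, r :: σ => ∑ i, f h r i * (dist (s i) r + ec f ((r, i) :: h) (Function.update s i r) σ)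

theorem ec_eq (A : Policy X k) (σ : List X) : ∀ h s, ec A.prob h s σ = ecost A h s σ := by
  induction σ with
  | nil => intro h s; rfl
  | cons r σ ih => intro h s; simp only [ec, ecost, ih]

theorem ec_cont (σ : List X) : ∀ (h : List (X × Fin k)) (s : Fin k → X),
    Continuous fun f : List (X × Fin k) → X → Fin k → ℝ => ec f h s σ := by
  induction σ with
  | nil => intro h s; exact continuous_const
  | cons r σ ih =>
    intro h s
    simp only [ec]
    refine continuous_finsetSum _ fun i _ => Continuous.mul ?_ (continuous_const.add (ih _ _))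
    exact (continuous_apply i).comp ((continuous_apply r).comp (continuous_apply h))

theorem finite_case (hk : 0 < k) (s : Fin k → X) (c B : ℝ)
    (H : ∀ (Ω : Type u) [Fintype Ω] (p : Ω → ℝ) (σ : Ω → List X), (∀ ω, 0 < p ω) →
      ∑ ω, p ω = 1 → ∃ π : List (X × Fin k) → X → Fin k,
        ∑ ω, p ω * dcost π [] s (σ ω) ≤ c * ∑ ω, p ω * opt s (σ ω) + B) (S : Finset (List X)) :
    ∃ A : Policy X k, ∀ σ ∈ S, ecost A [] s σ ≤ c * opt s σ + (B + 1) := by
  have : Nonempty (List (X × Fin k) → X → Fin k) := ⟨fun _ _ => ⟨0, hk⟩⟩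
  obtain ⟨x, hx, hx1⟩ := sep (ι := S)
    (fun (π : List (X × Fin k) → X → Fin k) σ => dcost π [] s σ - c * opt s σ - B) fun l hl h1 => by
      have e : ∀ g : S → ℝ, ∑ ω : {i : S // 0 < l i}, l ω * g ω = ∑ i, l i * g i := by
        intro g
        rw [← sum_subtype (p := fun i : S => 0 < l i) (univ.filter fun i : S => 0 < l i)
          (by simp) fun i => l i * g i]
        refine sum_filter_of_ne fun i _ hi => lt_of_le_of_ne (hl i) fun e => hi ?_
        rw [← e, zero_mul]
      obtain ⟨π, hπ⟩ := H {i : S // 0 < l i} (fun ω => l ω) (fun ω => ω.1.1) (fun ω => ω.2)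
        (by have := e fun _ => 1; simp only [mul_one, h1] at this; exact this)
      rw [e fun i => dcost π [] s i, e fun i => opt s i.1] at hπ
      refine ⟨π, ?_⟩
      simp only [mul_sub, sum_sub_distrib, ← sum_mul, h1, mul_left_comm _ c, ← mul_sum]
      linarith
  obtain ⟨J, _, w, z, hw, hw1, hz, rfl⟩ := mem_convexHull_iff_exists_fintype.1 hx
  choose π hπ using hz
  refine ⟨mix w π hk hw, fun σ hσ => ?_⟩
  have h1 := kuhn w π hk hw σ [] s
  have h2 := hx1 ⟨σ, hσ⟩
  simp only [wt, cons, ind_pos trivial, mul_one, one_mul, hw1] at h1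
  simp only [← hπ, Finset.sum_apply, Pi.smul_apply, smul_eq_mul, mul_sub, sum_sub_distrib, ← sum_mul,
    hw1] at h2
  linarith

end MMAux

theorem of_bayes {X : Type u} [MetricSpace X] {k : ℕ} (hk : 0 < k) (s : Fin k → X) (c B : ℝ)
    (H : ∀ (Ω : Type u) [Fintype Ω] (p : Ω → ℝ) (σ : Ω → List X), (∀ ω, 0 < p ω) →
      ∑ ω, p ω = 1 → ∃ π : List (X × Fin k) → X → Fin k,
        ∑ ω, p ω * dcost π [] s (σ ω) ≤ c * ∑ ω, p ω * opt s (σ ω) + B) :
    ∃ A : Policy X k, ∀ σ, ecost A [] s σ ≤ c * opt s σ + (B + 1) := by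
  have hK : IsCompact {f : List (X × Fin k) → X → Fin k → ℝ |
      ∀ h, f h ∈ {g : X → Fin k → ℝ | ∀ r, g r ∈ stdSimplex ℝ (Fin k)}} :=
    isCompact_pi_infinite fun _ => isCompact_pi_infinite fun _ => isCompact_stdSimplex ℝ _
  obtain ⟨f, hf, hf'⟩ := hK.inter_iInter_nonempty
    (fun σ : List X => {f | MMAux.ec f [] s σ ≤ c * opt s σ + (B + 1)})
    (fun σ => isClosed_le (MMAux.ec_cont σ _ _) continuous_const) fun S => by
      obtain ⟨A, hA⟩ := MMAux.finite_case hk s c B H S
      refine ⟨A.prob, fun h r => ⟨A.nonneg h r, A.sum_one h r⟩, ?_⟩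
      simp only [Set.mem_iInter, Set.mem_ofPred_eq, MMAux.ec_eq]
      exact hA
  refine ⟨⟨f, fun h r => (hf h r).1, fun h r => (hf h r).2⟩, fun σ => ?_⟩
  rw [← MMAux.ec_eq]
  exact Set.mem_iInter.1 hf' σ

end Vale.Agent.P304
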