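import Vale.Agent.P304.NodeA

/-! One node of the embedding: dynamics and pointwise potential estimates. -/

namespace Vale.Agent.P304
open Finset
open scoped Classical

namespace NodeAux

structure St (X : Type*) where
  c : X
  a : ℕ → X
  Z : ℕ → List X

variable {X : Type*} [MetricSpace X] (C : Scale X) (N : ℕ)

def rs (σ : St X) (c' : X) (j : ℕ) : Prop := C.sc j / 4 < dist (σ.a j) c' ∨ N ≤ (σ.Z j).length

noncomputable def Z0 (σ : St X) (c' : X) (j : ℕ) : List X := if rs C N σ c' j then [] else σ.Z j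

def ad (σ : St X) (c' r : X) (p : Prop) (j : ℕ) : Prop :=
  p ∧ C.sc j ≤ dist r c' ∧ dist r c' < 4 * C.sc j ∧
    ∀ x ∈ Z0 C N σ c' j, C.sc j / 5000 / 2 < dist x r

noncomputable def step (σ : St X) (c' r : X) (p : Prop) : St X :=
  ⟨c', fun j => if rs C N σ c' j then c' else σ.a j,
    fun j => Z0 C N σ c' j ++ if ad C N σ c' r p j then [r] else []⟩

structure Inv (z : X) (ρ : ℝ) (σ : St X) : Prop where
  ball : dist σ.c z ≤ ρ
  near : ∀ j, dist (σ.a j) σ.c ≤ C.sc j / 4
  len : ∀ j, (σ.Z j).length ≤ N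
  mem : ∀ j, ∀ x ∈ σ.Z j, 3 / 4 * C.sc j ≤ dist x (σ.a j) ∧ dist x (σ.a j) ≤ 17 / 4 * C.sc j ∧
    dist x z ≤ ρ

noncomputable def cp (σ : St X) (u : ℕ → ℝ) (y : X) (j : ℕ) : Option X :=
  cap (C.sc j / 5000) (σ.Z j) u y

noncomputable def psi (σ : St X) (j : ℕ) (y : X) : ℝ :=
  max 0 (min 1 (min (4 * (dist y (σ.a j) / C.sc j) - 3 / 2) (6 - dist y (σ.a j) / C.sc j)))

noncomputable def gp (σ : St X) (u : ℕ → ℝ) (y : X) (j : ℕ) : ℝ :=
  68 * dist (σ.a j) σ.c * psi C σ j y - 8 * C.sc j * ind (cp C σ u y j ≠ none) -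
    10000 * cov (C.sc j / 5000) (σ.Z j) y

noncomputable def phi (σ : St X) (u : ℕ → ℝ) (y : X) : ℝ :=
  546 * dist y σ.c + ∑ j ∈ range C.J, gp C σ u y j

variable {C N} {z : X} {ρ : ℝ} {σ : St X} {u : ℕ → ℝ}

theorem Inv.step (hN : 1 ≤ N) (h : Inv C N z ρ σ) {c' r : X} {p : Prop} (hc : dist c' z ≤ ρ)
    (hr : p → dist r z ≤ ρ) : Inv C N z ρ (step C N σ c' r p) := by
  have hn : ∀ j, dist ((NodeAux.step C N σ c' r p).a j) c' ≤ C.sc j / 4 := fun j => by
    simp only [NodeAux.step]
    split_ifs with hs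
    · have := C.sc_pos j
      rw [dist_self]; positivity
    · exact not_lt.1 fun hc => hs (Or.inl hc)
  refine ⟨hc, hn, fun j => ?_, fun j x hx => ?_⟩
  · simp only [NodeAux.step, Z0, List.length_append]
    split_ifs with hs _ _
    · simpa using hN
    · simp
    · exact not_le.1 fun hc => hs (Or.inr hc)
    · exact h.len j
  · rcases List.mem_append.1 hx with hx | hx
    · simp only [NodeAux.step, Z0] at hx ⊢
      split_ifs at hx ⊢ with hs
      exacts [absurd hx (by simp), h.mem j x hx]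
    · split_ifs at hx with ha
      · obtain rfl := List.mem_singleton.1 hx
        have := hn j
        refine ⟨?_, ?_, hr ha.1⟩
        · linarith [ha.2.1, dist_triangle x ((NodeAux.step C N σ c' x p).a j) c']
        · linarith [ha.2.2.1, dist_triangle_right x ((NodeAux.step C N σ c' x p).a j) c']
      · cases hx

theorem Inv.cen (h : Inv C N z ρ σ) {j : ℕ} {x : X} (hx : x ∈ σ.Z j) :
    C.sc j / 2 ≤ dist x σ.c ∧ dist x σ.c ≤ 9 / 2 * C.sc j ∧ C.sc j ≤ 4 * ρ := by
  obtain ⟨h1, h2, h3⟩ := h.mem j x hx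
  have h4 := h.near j
  have h5 := dist_triangle_right x (σ.a j) σ.c
  refine ⟨by linarith, by linarith [dist_triangle x (σ.a j) σ.c], ?_⟩
  linarith [dist_triangle_right x σ.c z, h.ball]

theorem psi_nonneg (j : ℕ) (y : X) : 0 ≤ psi C σ j y := le_max_left _ _

theorem psi_le (h : Inv C N z ρ σ) (j : ℕ) (y : X) : psi C σ j y ≤ ind (rel C j (dist y σ.c)) := by
  by_cases hr : rel C j (dist y σ.c)
  · rw [ind_pos hr]; exact max_le zero_le_one (min_le_left _ _)
  · rw [ind_neg hr]
    refine max_le le_rfl (not_lt.1 fun hc => hr ?_)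
    simp only [lt_min_iff] at hc
    have hs := C.sc_pos j
    have h1 : 3 / 8 < dist y (σ.a j) / C.sc j := by linarith [hc.2.1]
    have h2 : dist y (σ.a j) / C.sc j < 6 := by linarith [hc.2.2]
    rw [lt_div_iff₀ hs] at h1
    rw [div_lt_iff₀ hs] at h2
    have h3 := h.near j
    exact ⟨by linarith [dist_triangle_right y (σ.a j) σ.c],
      by linarith [dist_triangle y (σ.a j) σ.c]⟩

theorem psi_one (h : Inv C N z ρ σ) {j : ℕ} {x y : X} (hx : x ∈ σ.Z j)
    (hy : dist x y ≤ C.sc j / 5000) : psi C σ j y = 1 := by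
  obtain ⟨h1, h2, -⟩ := h.mem j x hx
  have hs := C.sc_pos j
  have h3 : 5 / 8 ≤ dist y (σ.a j) / C.sc j := by
    rw [le_div_iff₀ hs]; linarith [dist_triangle x y (σ.a j)]
  have h4 : dist y (σ.a j) / C.sc j ≤ 5 := by
    rw [div_le_iff₀ hs]; linarith [dist_triangle_left y (σ.a j) x]
  rw [psi, min_eq_left (le_min (by linarith) (by linarith)), max_eq_right zero_le_one]

theorem psi_lip (j : ℕ) (y y' : X) : psi C σ j y' ≤ psi C σ j y + 4 * (dist y y' / C.sc j) := by
  have hs := C.sc_pos j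
  have h1 : dist y' (σ.a j) / C.sc j ≤ dist y (σ.a j) / C.sc j + dist y y' / C.sc j := by
    rw [← add_div]; gcongr; linarith [dist_triangle_left y' (σ.a j) y]
  have h2 : dist y (σ.a j) / C.sc j ≤ dist y' (σ.a j) / C.sc j + dist y y' / C.sc j := by
    rw [← add_div]; gcongr; linarith [dist_triangle y y' (σ.a j)]
  have h3 : 0 ≤ dist y y' / C.sc j := by positivity
  unfold psi
  generalize dist y' (σ.a j) / C.sc j = a at *
  generalize dist y (σ.a j) / C.sc j = b at *
  generalize dist y y' / C.sc j = e at *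
  simp only [max_def, min_def]
  split_ifs <;> linarith

theorem cp_some (hu : ∀ m, u m ≤ 1) {y x : X} {j : ℕ} (h : cp C σ u y j = some x) :
    x ∈ σ.Z j ∧ dist x y ≤ C.sc j / 5000 :=
  cap_some (by have := C.sc_pos j; positivity) hu h

theorem ind_cp_le (h : Inv C N z ρ σ) (hu : ∀ m, u m ≤ 1) (y : X) (j : ℕ) :
    ind (cp C σ u y j ≠ none) ≤ psi C σ j y := by
  by_cases hc : cp C σ u y j = none
  · rw [ind_neg (not_not.2 hc)]; exact psi_nonneg _ _
  · obtain ⟨x, hx⟩ := Option.ne_none_iff_exists'.1 hc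
    rw [psi_one h (cp_some hu hx).1 (cp_some hu hx).2]; exact ind_le_one _

theorem cov_le_psi (h : Inv C N z ρ σ) (y : X) (j : ℕ) :
    10000 * cov (C.sc j / 5000) (σ.Z j) y ≤ C.sc j * psi C σ j y := by
  have hs := C.sc_pos j
  rcases (cov_nonneg (C.sc j / 5000) (σ.Z j) y).eq_or_lt with h0 | h0
  · rw [← h0, mul_zero]; exact mul_nonneg hs.le (psi_nonneg _ _)
  · obtain ⟨x, hx, hy⟩ := cov_pos h0
    rw [psi_one h hx (by linarith)]
    linarith [cov_le (R := C.sc j / 5000) (by positivity) (σ.Z j) y]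

theorem adj (h : Inv C N z ρ σ) (hu : ∀ m, u m ≤ 1) (y : X) (j j' : ℕ) (h1 : cp C σ u y j ≠ none)
    (h2 : cp C σ u y j' ≠ none) : j' ≤ j + 1 := by
  obtain ⟨x, hx⟩ := Option.ne_none_iff_exists'.1 h1
  obtain ⟨x', hx'⟩ := Option.ne_none_iff_exists'.1 h2
  obtain ⟨a1, a2⟩ := cp_some hu hx
  obtain ⟨b1, b2⟩ := cp_some hu hx'
  refine le_of_sc C ?_
  norm_num
  linarith [(h.cen a1).2.1, (h.cen b1).1, dist_triangle x' y σ.c, dist_triangle_left y σ.c x,
    C.sc_pos j]

theorem wt_own (h : Inv C N z ρ σ) (hu : ∀ m, u m ≤ 1) (y : X) :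
    wt (ownP C (cp C σ u y)) ≤ 4 * ρ := by
  cases ho : ownP C (cp C σ u y) with
  | none => exact mul_nonneg (by norm_num) (dist_nonneg.trans h.ball)
  | some e => exact (h.cen (cp_some hu (ownP_some.1 ho).1).1).2.2

theorem phi_nonneg (h : Inv C N z ρ σ) (hu : ∀ m, u m ≤ 1) (y : X) : 0 ≤ phi C σ u y := by
  have := sum_le_rel C (f := fun j => -gp C σ u y j) (A := 72 * dist y σ.c) (d := dist y σ.c)
    (by positivity) fun j => by
      have h1 := mul_le_mul_of_nonneg_left (ind_cp_le h hu y j) (C.sc_pos j).le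
      have h2 := cov_le_psi h y j
      have h3 := mul_le_mul_of_nonneg_left (psi_le h j y) (C.sc_pos j).le
      have h4 := sc_rel C j (d := dist y σ.c)
      have h5 := mul_nonneg (dist_nonneg (x := σ.a j) (y := σ.c)) (psi_nonneg (C := C) (σ := σ) j y)
      unfold gp; linarith
  rw [sum_neg_distrib] at this
  unfold phi; linarith [dist_nonneg (x := y) (y := σ.c)]

theorem phi_le (h : Inv C N z ρ σ) {y : X} (hy : dist y z ≤ ρ) : phi C σ u y ≤ 2180 * ρ := by
  have := sum_le_rel C (f := fun j => gp C σ u y j) (A := 136 * dist y σ.c) (d := dist y σ.c)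
    (by positivity) fun j => by
      have h1 := mul_nonneg (C.sc_pos j).le (ind_nonneg (cp C σ u y j ≠ none))
      have h2 := cov_nonneg (C.sc j / 5000) (σ.Z j) y
      have h3 := mul_le_mul (h.near j) (psi_le h j y) (psi_nonneg _ _)
        (by have := C.sc_pos j; positivity)
      have h4 := sc_rel C j (d := dist y σ.c)
      unfold gp; linarith
  unfold phi; linarith [dist_triangle_right y σ.c z, h.ball]

theorem ind_ne_sub {α : Type*} (a b : Option α) : ind (a ≠ none) - ind (b ≠ none) ≤ ind (a ≠ b) := by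
  by_cases h : a = b
  · simp [h, ind_nonneg]
  · rw [ind_pos h]; linarith [ind_le_one (a ≠ none), ind_nonneg (b ≠ none)]

theorem phi_move (h : Inv C N z ρ σ) (y y' : X) : phi C σ u y' - phi C σ u y ≤
    81090 * dist y y' + 8 * ∑ j ∈ range C.J, C.sc j * ind (cp C σ u y j ≠ cp C σ u y' j) := by
  have k1 := sum_le_rel C (f := fun j => 68 * dist (σ.a j) σ.c * (psi C σ j y' - psi C σ j y))
    (A := 68 * dist y y') (d := dist y' σ.c) (by positivity) fun j => by
      have hs := C.sc_pos j
      have h0 := dist_nonneg (x := σ.a j) (y := σ.c)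
      by_cases hr : rel C j (dist y' σ.c)
      · have h1 := mul_le_mul_of_nonneg_left (sub_le_iff_le_add'.2 (psi_lip (C := C) (σ := σ) j y y')) h0
        have h2 := mul_le_mul_of_nonneg_right (h.near j)
          (by positivity : 0 ≤ 4 * (dist y y' / C.sc j))
        have h3 : C.sc j / 4 * (4 * (dist y y' / C.sc j)) = dist y y' := by field_simp
        rw [ind_pos hr]; linarith
      · have h1 := psi_le h j y'
        rw [ind_neg hr] at h1 ⊢
        have := psi_nonneg (C := C) (σ := σ) j y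
        nlinarith
  have k2 := sum_le_rel C (f := fun j => 10000 * (cov (C.sc j / 5000) (σ.Z j) y -
      cov (C.sc j / 5000) (σ.Z j) y')) (A := 10000 * dist y y') (d := dist y σ.c)
    (by positivity) fun j => by
      by_cases hr : rel C j (dist y σ.c)
      · rw [ind_pos hr]; linarith [cov_lip (C.sc j / 5000) (σ.Z j) y y']
      · have h1 := psi_le h j y
        have h2 := cov_le_psi h y j
        rw [ind_neg hr] at h1 ⊢
        have := cov_nonneg (C.sc j / 5000) (σ.Z j) y'
        nlinarith [C.sc_pos j]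
  have k3 : ∑ j ∈ range C.J, (gp C σ u y' j - gp C σ u y j) ≤ ∑ j ∈ range C.J,
      (68 * dist (σ.a j) σ.c * (psi C σ j y' - psi C σ j y) + 10000 *
        (cov (C.sc j / 5000) (σ.Z j) y - cov (C.sc j / 5000) (σ.Z j) y') +
        8 * (C.sc j * ind (cp C σ u y j ≠ cp C σ u y' j))) := sum_le_sum fun j _ => by
    have := mul_le_mul_of_nonneg_left (ind_ne_sub (cp C σ u y j) (cp C σ u y' j)) (C.sc_pos j).le
    unfold gp; linarith
  rw [sum_sub_distrib, sum_add_distrib, sum_add_distrib, ← mul_sum _ _ (8 : ℝ)] at k3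
  unfold phi
  linarith [dist_triangle_left y' σ.c y, dist_nonneg (x := y) (y := y')]

theorem cut_rel (h : Inv C N z ρ σ) (hu : ∀ m, u m ≤ 1) {y y' : X} {j : ℕ}
    (h1 : ¬ rel C j (dist y σ.c)) (h2 : ¬ rel C j (dist y' σ.c)) :
    cp C σ u y j = cp C σ u y' j := by
  have : ∀ y, ¬ rel C j (dist y σ.c) → cp C σ u y j = none := fun y hy => by
    by_contra hc
    have := (ind_cp_le h hu y j).trans (psi_le h j y)
    rw [ind_pos hc, ind_neg hy] at this
    linarith
  rw [this y h1, this y' h2]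

theorem gp_step (h : Inv C N z ρ σ) (hu : ∀ m, u m ≤ 1) (c' r : X) (p : Prop) (y : X) (j : ℕ) :
    gp C (step C N σ c' r p) u y j - gp C σ u y j +
      8 * (C.sc j * ind (cp C σ u y j ≠ cp C (step C N σ c' r p) u y j)) ≤
    68 * dist σ.c c' * ind (rel C j (dist y σ.c)) + 17 * C.sc j * ind (N ≤ (σ.Z j).length) -
      C.sc j * ind (ad C N σ c' r p j ∧ y = r) := by
  have hs := C.sc_pos j
  have p0 := psi_nonneg (C := C) (σ := σ) j y
  have p1 := psi_le h j y
  have p2 := mul_le_mul_of_nonneg_left p1 (dist_nonneg (x := σ.c) (y := c'))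
  have p3 := mul_nonneg hs.le (ind_nonneg (N ≤ (σ.Z j).length))
  have hcov : 10000 * cov (C.sc j / 5000) (Z0 C N σ c' j) y + C.sc j *
      ind (ad C N σ c' r p j ∧ y = r) ≤
      10000 * cov (C.sc j / 5000) ((step C N σ c' r p).Z j) y := by
    by_cases ha : ad C N σ c' r p j ∧ y = r
    · obtain ⟨ha, rfl⟩ := ha
      have h1 : cov (C.sc j / 5000) (Z0 C N σ c' j) y ≤ 0 := not_lt.1 fun hc => by
        obtain ⟨x, hx, hy⟩ := cov_pos hc
        exact absurd (ha.2.2.2 x hx) (not_lt.2 hy.le)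
      have h2 := cov_mem (C.sc j / 5000) (Z := (step C N σ c' y p).Z j) (y := y)
        (by simp [step, ha])
      rw [ind_pos ⟨ha, rfl⟩]; linarith
    · rw [ind_neg ha, mul_zero, add_zero]
      exact mul_le_mul_of_nonneg_left (cov_append _ _ _ _) (by norm_num)
  have hnone : cp C σ u y j = none → ind (cp C σ u y j ≠ none) -
      ind (cp C (step C N σ c' r p) u y j ≠ none) +
      ind (cp C σ u y j ≠ cp C (step C N σ c' r p) u y j) ≤ 0 := fun h0 => by
    rw [h0, ind_neg (not_not.2 rfl), ne_comm (a := none)]; linarith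
  by_cases hr : rs C N σ c' j
  · have e1 : (step C N σ c' r p).a j = c' := if_pos hr
    have e2 : (step C N σ c' r p).c = c' := rfl
    have k1 : ind (cp C σ u y j ≠ none) - ind (cp C (step C N σ c' r p) u y j ≠ none) +
        ind (cp C σ u y j ≠ cp C (step C N σ c' r p) u y j) ≤ 2 * psi C σ j y := by
      by_cases h0 : cp C σ u y j = none
      · linarith [hnone h0]
      · have := ind_cp_le h hu y j
        rw [ind_pos h0] at this ⊢
        linarith [ind_nonneg (cp C (step C N σ c' r p) u y j ≠ none),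
          ind_le_one (cp C σ u y j ≠ cp C (step C N σ c' r p) u y j)]
    have k2 := mul_le_mul_of_nonneg_left k1 hs.le
    have k3 := cov_le_psi h y j
    have k4 := cov_nonneg (C.sc j / 5000) (Z0 C N σ c' j) y
    have k5 : 17 * C.sc j * psi C σ j y - 68 * dist (σ.a j) σ.c * psi C σ j y ≤
        68 * dist σ.c c' * psi C σ j y + 17 * C.sc j * ind (N ≤ (σ.Z j).length) := by
      rcases hr with hr | hr
      · have := mul_le_mul_of_nonneg_right (hr.le.trans (dist_triangle _ σ.c _)) p0
        linarith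
      · have := mul_le_mul_of_nonneg_left (p1.trans (ind_le_one _)) hs.le
        have := mul_nonneg (dist_nonneg (x := σ.a j) (y := σ.c)) p0
        have := mul_nonneg (dist_nonneg (x := σ.c) (y := c')) p0
        rw [ind_pos hr]; linarith
    unfold gp
    rw [e1, e2, dist_self]
    linarith
  · have e1 : (step C N σ c' r p).a j = σ.a j := if_neg hr
    have e2 : (step C N σ c' r p).c = c' := rfl
    have e3 : Z0 C N σ c' j = σ.Z j := if_neg hr
    have e4 : psi C (step C N σ c' r p) j y = psi C σ j y := by simp only [psi, e1]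
    have k1 : ind (cp C σ u y j ≠ none) - ind (cp C (step C N σ c' r p) u y j ≠ none) +
        ind (cp C σ u y j ≠ cp C (step C N σ c' r p) u y j) ≤ 0 := by
      by_cases h0 : cp C σ u y j = none
      · exact hnone h0
      · have : cp C (step C N σ c' r p) u y j = cp C σ u y j := by
          simp only [cp, step, e3]; exact cap_append h0
        rw [this, ind_neg (p := _ ≠ _) (not_not.2 rfl)]; linarith
    have k2 := mul_le_mul_of_nonneg_left k1 hs.le
    have k3 := mul_le_mul_of_nonneg_right (dist_triangle (σ.a j) σ.c c') p0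
    rw [e3] at hcov
    unfold gp
    rw [e1, e2, e4]
    linarith

theorem len_step (σ : St X) (c' r : X) (p : Prop) (j : ℕ) :
    (((step C N σ c' r p).Z j).length : ℝ) - (σ.Z j).length ≤
      ind (ad C N σ c' r p j) - N * ind (N ≤ (σ.Z j).length) := by
  have h1 : (((step C N σ c' r p).Z j).length : ℝ) =
      (Z0 C N σ c' j).length + ind (ad C N σ c' r p j) := by
    simp only [step, ind, List.length_append]
    split_ifs <;> simp
  rw [h1]
  by_cases hN : N ≤ (σ.Z j).length
  · have : (N : ℝ) ≤ (σ.Z j).length := by exact_mod_cast hN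
    rw [Z0, if_pos (show rs C N σ c' j from Or.inr hN), ind_pos hN]
    simp; linarith
  · rw [ind_neg hN, Z0]
    split_ifs
    · simp
    · simp

theorem own_ne (hu : ∀ m, 1 / 2 ≤ u m) (σ : St X) {c' r : X} {p : Prop} (hp : p) (hr : r ≠ c') :
    ownP C (cp C (step C N σ c' r p) u r) ≠ none := by
  intro ho
  have h1 := C.lo r c' hr
  have h2 := C.hi r c'
  obtain ⟨j, hj1, hj2⟩ := exists_nat_pow_near ((one_le_div C.pos).2 h1) (by norm_num : (1 : ℝ) < 4)
  rw [le_div_iff₀' C.pos] at hj1
  rw [div_lt_iff₀' C.pos, pow_succ] at hj2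
  have hJ : j < C.J := by
    by_contra hc
    have := mul_le_mul_of_nonneg_left
      (pow_le_pow_right₀ (by norm_num : (1 : ℝ) ≤ 4) (not_lt.1 hc)) C.pos.le
    linarith
  have hs := C.sc_pos j
  by_cases ha : ad C N σ c' r p j
  · exact cap_ne (x := r) (by positivity) hu (by simp [step, ha]) (by rw [dist_self]; positivity)
      (ownP_none ho hJ)
  · have : ∃ x ∈ Z0 C N σ c' j, dist x r ≤ C.sc j / 5000 / 2 := by
      by_contra hc
      push Not at hc
      exact ha ⟨hp, hj1, by unfold Scale.sc; linarith, hc⟩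
    obtain ⟨x, hx, hd⟩ := this
    exact cap_ne (by positivity) hu (List.mem_append_left _ hx) hd (ownP_none ho hJ)

end NodeAux
end Vale.Agent.P304
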