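import Vale.Agent.P304.Cut
import Vale.Agent.P304.NodeB

/-! One node of the embedding. -/

namespace Vale.Agent.P304
open Finset
open scoped Classical

namespace NodeAux
variable {Ω X : Type*} [Fintype Ω] [Fintype X] [MetricSpace X] {k : ℕ} (P : Prior Ω X k)
  (C : Scale X) (S : List X → X → Prop) (z : X) {ρ : ℝ}

noncomputable def LL (h : List X) (c : X) : ℝ := P.mu h fun y => ind (S h y) * dist y c

noncomputable def mm (h : List X) : ℝ := P.mu h fun y => ind (S h y)

def IsNc (ρ : ℝ) (nc : List X → X → X) : Prop :=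
  ∀ h c, dist (nc h c) z ≤ ρ ∧ ∀ x, dist x z ≤ ρ →
    LL P S h (nc h c) + mm P S h / 2 * dist c (nc h c) ≤ LL P S h x + mm P S h / 2 * dist c x

theorem exists_nc (hρ : 0 ≤ ρ) : ∃ nc, IsNc P S z ρ nc := by
  have : ∀ h c, ∃ c', dist c' z ≤ ρ ∧ ∀ x, dist x z ≤ ρ →
      LL P S h c' + mm P S h / 2 * dist c c' ≤ LL P S h x + mm P S h / 2 * dist c x := fun h c => by
    obtain ⟨c', h1, h2⟩ := exists_min_image ({x | dist x z ≤ ρ} : Finset X)
      (fun x => LL P S h x + mm P S h / 2 * dist c x) ⟨z, by simpa using hρ⟩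
    exact ⟨c', by simpa using h1, fun x hx => h2 x (by simpa using hx)⟩
  choose nc h using this
  exact ⟨nc, h⟩

noncomputable def st (N : ℕ) (nc : List X → X → X) : List X → St X
  | [] => ⟨z, fun _ => z, fun _ => []⟩
  | r :: h => step C N (st N nc h) (nc (r :: h) (st N nc h).c) r (S (r :: h) r)

noncomputable def KK (σ : St X) : ℝ := ∑ j ∈ range C.J, C.sc j * (σ.Z j).length

noncomputable def chg (σ σ' : St X) (u : ℕ → ℝ) (y y' : X) : ℝ :=
  ∑ j ∈ range C.J, C.sc j * ind (cp C σ u y j ≠ cp C σ' u y' j)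

variable {P C S z} {nc : List X → X → X} {N : ℕ} {u : ℕ → ℝ}

omit [Fintype X] in
theorem chg_nonneg (σ σ' : St X) (y y' : X) : 0 ≤ chg C σ σ' u y y' :=
  sum_nonneg fun j _ => mul_nonneg (C.sc_pos j).le (ind_nonneg _)

omit [Fintype X] in
theorem inv_st (hN : 1 ≤ N) (hρ : 0 ≤ ρ) (hS : ∀ h y, S h y → dist y z ≤ ρ)
    (hnc : IsNc P S z ρ nc) (h : List X) : Inv C N z ρ (st C S z N nc h) := by
  induction h with
  | nil =>
    refine ⟨by simpa [st] using hρ, fun j => ?_, fun j => by simp [st], fun j x hx => ?_⟩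
    · have := C.sc_pos j
      simp only [st, dist_self]; positivity
    · cases hx
  | cons r h ih => exact ih.step hN (hnc _ _).1 (hS _ _)

omit [Fintype X] in
theorem struct (hu : ∀ m, u m ≤ 1) {σ : St X} (hσ : Inv C (17 * k) z ρ σ) (hnc : IsNc P S z ρ nc)
    {r : X} {h : List X} (hv : P.Valid (r :: h)) {σ' : St X}
    (e : σ' = step C (17 * k) σ (nc (r :: h) σ.c) r (S (r :: h) r)) :
    P.mu (r :: h) (fun y => ind (S (r :: h) y) *
      (phi C σ' u y - phi C σ u y + 8 * chg C σ σ' u y y)) + mm P S (r :: h) * dist σ.c σ'.c +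
      (KK C σ' - KK C σ) ≤ 0 := by
  have h1 := (hnc (r :: h) σ.c).2 σ.c hσ.ball
  generalize nc (r :: h) σ.c = c' at h1 e
  have ec : σ'.c = c' := by rw [e]; rfl
  set A := ∑ j ∈ range C.J, C.sc j * ind (17 * k ≤ (σ.Z j).length) with hA
  have hA0 : 0 ≤ A := sum_nonneg fun j _ => mul_nonneg (C.sc_pos j).le (ind_nonneg _)
  set W := fun y => ∑ j ∈ range C.J,
    C.sc j * ind (ad C (17 * k) σ c' r (S (r :: h) r) j ∧ y = r) with hW
  have hW0 : ∀ y, 0 ≤ W y := fun y =>
    sum_nonneg fun j _ => mul_nonneg (C.sc_pos j).le (ind_nonneg _)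
  have k1 : ∀ y, ind (S (r :: h) y) * (phi C σ' u y - phi C σ u y + 8 * chg C σ σ' u y y) ≤
      546 * (ind (S (r :: h) y) * dist y c') - 546 * (ind (S (r :: h) y) * dist y σ.c) +
        272 * dist σ.c c' * ind (S (r :: h) y) + 17 * A - W y := fun y => by
    by_cases hy : S (r :: h) y
    · have k2 := sum_le_sum fun j (_ : j ∈ range C.J) => gp_step hσ hu c' r (S (r :: h) r) y j
      have k3 := mul_le_mul_of_nonneg_left (sum_rel C (dist y σ.c))
        (dist_nonneg (x := σ.c) (y := c'))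
      rw [← e] at k2
      simp only [sum_add_distrib, sum_sub_distrib, mul_assoc, ← mul_sum] at k2
      rw [ind_pos hy]
      simp only [phi, chg, ec, hW]
      linarith
    · have : W y = 0 := sum_eq_zero fun j _ => by
        rw [ind_neg, mul_zero]
        rintro ⟨h1, rfl⟩; exact hy h1.1
      rw [ind_neg hy, this]; linarith
  have k2 := P.mu_mono (r :: h) k1
  rw [P.mu_sub, P.mu_add, P.mu_add, P.mu_sub, P.mu_mul, P.mu_mul, P.mu_mul, P.mu_const hv] at k2
  have k3 := P.mu_req hv hW0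
  have k4 : KK C σ' - KK C σ ≤ W r - (17 * k : ℕ) * A := by
    simp only [KK, hW, hA, mul_sum, ← sum_sub_distrib, and_true]
    refine sum_le_sum fun j _ => ?_
    have := mul_le_mul_of_nonneg_left (len_step (C := C) (N := 17 * k) σ c' r (S (r :: h) r) j)
      (C.sc_pos j).le
    rw [e]; linarith
  push_cast at k4
  simp only [LL, mm, dist_self] at h1 ⊢
  rw [ec]
  linarith

omit [Fintype X] in
theorem mass (hu : ∀ m, u m ≤ 1) {σ : St X} {h : List X} {c : X} (hσ : Inv C N z ρ σ)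
    (hnc : IsNc P S z ρ nc) (ec : σ.c = nc h c) (e : Fin C.J × X) :
    P.mu h (fun y => ind (S h y ∧ ownP C (cp C σ u y) = some e)) ≤
      6 / 7 * P.mu h fun y => ind (S h y) := by
  have hm : 0 ≤ mm P S h := P.mu_nonneg _ fun _ => ind_nonneg _
  by_cases hx : e.2 ∈ σ.Z e.1
  · have h1 := (hnc h c).2 e.2 (hσ.mem _ _ hx).2.2
    rw [← ec] at h1
    have h2 := (hσ.cen hx).1
    have hs := C.sc_pos e.1
    have h3 := mul_le_mul_of_nonneg_left (dist_triangle_right c e.2 σ.c) hm
    have k1 : ∀ y, 7 / 4 * dist e.2 σ.c * ind (S h y ∧ ownP C (cp C σ u y) = some e) -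
        dist e.2 σ.c * ind (S h y) ≤
        ind (S h y) * dist y σ.c - ind (S h y) * dist y e.2 := fun y => by
      by_cases hy : S h y
      · rw [ind_pos hy]
        by_cases ho : ownP C (cp C σ u y) = some e
        · have := (cp_some hu (ownP_some.1 ho).1).2
          rw [ind_pos ⟨hy, ho⟩, dist_comm y e.2]
          linarith [dist_triangle e.2 y σ.c]
        · rw [ind_neg fun h => ho h.2]
          linarith [dist_triangle_right y e.2 σ.c]
      · rw [ind_neg hy, ind_neg fun h => hy h.1]; simp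
    have k2 := P.mu_mono h k1
    rw [P.mu_sub, P.mu_sub, P.mu_mul, P.mu_mul] at k2
    simp only [LL, mm] at h1 h3 hm
    refine le_of_mul_le_mul_left ?_ (by linarith : 0 < dist e.2 σ.c)
    linarith
  · have := P.mu_mono h (φ := fun y => ind (S h y ∧ ownP C (cp C σ u y) = some e))
      (ψ := fun y => 0 * ind (S h y)) fun y => by
        rw [ind_neg fun ho => hx (cp_some hu (ownP_some.1 ho.2).1).1, zero_mul]
    rw [P.mu_mul] at this
    simp only [mm] at hm
    linarith

theorem point (hu : ∀ m, u m ≤ 1) {σ σ' : St X} (hσ : Inv C N z ρ σ) (hσ' : Inv C N z ρ σ')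
    {y y' : X} {p p' p'' : Prop} (h' : p' → dist y' z ≤ ρ) (h'' : p'' → dist y' z ≤ ρ) :
    ∑ e : Fin C.J × X, C.sc e.1 *
      (|ind (p ∧ ownP C (cp C σ u y) = some e) - ind (p' ∧ ownP C (cp C σ u y') = some e)| +
       |ind (p' ∧ ownP C (cp C σ u y') = some e) - ind (p'' ∧ ownP C (cp C σ' u y') = some e)|) +
      (ind p'' * phi C σ' u y' - ind p * phi C σ u y) ≤
    81090 * (ind p * dist y y') + 16 * (ind p * chg C σ σ u y y') +
      2184 * ρ * (|ind p - ind p'| + |ind p' - ind p''|) +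
      ind p'' * (phi C σ' u y' - phi C σ u y' + 8 * chg C σ σ' u y' y') := by
  have k1 := sum_abs_le (adj hσ hu y) (adj hσ hu y') p p' (wt_own hσ hu y) (wt_own hσ hu y')
  have k2 := sum_abs_le (adj hσ hu y') (adj hσ' hu y') p' p'' (wt_own hσ hu y') (wt_own hσ' hu y')
  have k3 := phi_move (u := u) hσ y y'
  have k4 := phi_nonneg hσ hu y
  have k5 := phi_nonneg hσ hu y'
  have k6 := chg_nonneg (C := C) (u := u) σ σ y y'
  have k7 := chg_nonneg (C := C) (u := u) σ σ' y' y'
  have k8 : 0 ≤ ρ := dist_nonneg.trans hσ.ball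
  have k9 := dist_nonneg (x := y) (y := y')
  have j1 := fun hp => phi_le (u := u) hσ (h' hp)
  have j2 := fun hp => phi_le (u := u) hσ (h'' hp)
  simp only [mul_add, sum_add_distrib, chg] at *
  by_cases hp : p <;> by_cases hp' : p' <;> by_cases hp'' : p''
  all_goals simp only [ind_pos, ind_neg, hp, hp', hp'', not_false_eq_true, forall_const,
    IsEmpty.forall_iff] at k1 k2 j1 j2 ⊢
  all_goals norm_num at k1 k2 ⊢
  all_goals linarith

theorem fixed (hk : 2 ≤ k) (hu : ∀ m, u m ≤ 1) (hρ : 0 ≤ ρ) (hS : ∀ h y, S h y → dist y z ≤ ρ)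
    (hnc : IsNc P S z ρ nc) {σ : List X → St X} (e : σ = st C S z (17 * k) nc) :
    ∑ e : Fin C.J × X, C.sc e.1 * P.cross (fun h y => S h y ∧ ownP C (cp C (σ h) u y) = some e) +
      P.drag S (fun h => (σ h).c) ≤ 81090 * P.mv S +
      16 * P.ET (fun ω t => ∑ a, ind (S (P.hist ω t) (P.o ω t a)) *
        chg C (σ (P.hist ω t)) (σ (P.hist ω t)) u (P.o ω t a) (P.o ω (t + 1) a)) +
      2184 * ρ * P.cross S + 546 * ∑ a, ind (S [] (P.s a)) * dist (P.s a) z := by
  have hI : ∀ h, Inv C (17 * k) z ρ (σ h) := fun h => e ▸ inv_st (by omega) hρ hS hnc h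
  have h1 := P.ET_tele (fun ω t => ∑ a, ind (S (P.hist ω t) (P.o ω t a)) *
      phi C (σ (P.hist ω t)) u (P.o ω t a) + KK C (σ (P.hist ω t))) (m := 0)
    (M := 546 * ∑ a, ind (S [] (P.s a)) * dist (P.s a) z)
    (fun ω => by
      simp [e, Prior.hist, P.init, st, KK, phi, gp, cp, cap, cov, ind_neg, mul_sum, mul_left_comm])
    (fun ω => add_nonneg
      (sum_nonneg fun a _ => mul_nonneg (ind_nonneg _) (phi_nonneg (hI _) hu _))
      (sum_nonneg fun j _ => mul_nonneg (C.sc_pos j).le (Nat.cast_nonneg _)))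
  have h2 := P.ET_mono fun ω t => sum_le_sum fun a (_ : a ∈ univ) =>
    point hu (hI (P.hist ω t)) (hI (P.hist ω (t + 1))) (y := P.o ω t a) (y' := P.o ω (t + 1) a)
      (p := S (P.hist ω t) (P.o ω t a)) (hS (P.hist ω t) _) (hS (P.hist ω (t + 1)) _)
  have h3 := P.ET_mono fun ω t => struct (C := C) hu (hI (P.hist ω t)) hnc
    (r := P.r ω t) (h := P.hist ω t) (P.valid_hist ω (t + 1)) (σ' := σ (P.hist ω (t + 1)))
    (by rw [e]; rfl)
  have h4 := P.ET_mu fun h y => ind (S h y) *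
    (phi C (σ h) u y - phi C (σ h.tail) u y + 8 * chg C (σ h.tail) (σ h) u y y)
  have h5 : ∑ e : Fin C.J × X, C.sc e.1 *
      P.cross (fun h y => S h y ∧ ownP C (cp C (σ h) u y) = some e) = P.ET fun ω t => ∑ a,
      ∑ e : Fin C.J × X, C.sc e.1 *
      (|ind (S (P.hist ω t) (P.o ω t a) ∧
          ownP C (cp C (σ (P.hist ω t)) u (P.o ω t a)) = some e) -
        ind (S (P.hist ω t) (P.o ω (t + 1) a) ∧
          ownP C (cp C (σ (P.hist ω t)) u (P.o ω (t + 1) a)) = some e)| +
       |ind (S (P.hist ω t) (P.o ω (t + 1) a) ∧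
          ownP C (cp C (σ (P.hist ω t)) u (P.o ω (t + 1) a)) = some e) -
        ind (S (P.hist ω (t + 1)) (P.o ω (t + 1) a) ∧
          ownP C (cp C (σ (P.hist ω (t + 1))) u (P.o ω (t + 1) a)) = some e)|) := by
    simp only [Prior.cross, ← P.ET_mul, ← P.ET_sum, mul_sum]
    congr 1; funext ω t; exact sum_comm
  rw [h5]
  simp only [sum_add_distrib, sum_sub_distrib, ← mul_sum, P.ET_add, P.ET_sub, P.ET_mul,
    P.ET_const, ← P.hist_succ] at h1 h2 h3
  simp only [P.hist_succ, List.tail_cons] at h4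
  simp only [← P.hist_succ] at h4
  simp only [Prior.cross, Prior.drag, Prior.mv, mm, sum_add_distrib, P.ET_add] at h3 ⊢
  linarith

omit [Fintype X] in
theorem avg_cut {σ : St X} (hσ : Inv C N z ρ σ) (hN : 1 ≤ N) {ι : Type} [Fintype ι] {q : ι → ℝ}
    {u : ι → ℕ → ℝ} (hu : ∀ i m, u i m ≤ 1)
    (H : ∀ (R : ℝ) (Z : List X) (y y' : X), 0 < R → Z.length ≤ N →
        (y ≠ y' → 1 / 4 ^ C.J * R ≤ dist y y') →
        ∑ i, q i * ind (cap R Z (u i) y ≠ cap R Z (u i) y') ≤
          6 * Real.log (2 * N) * (dist y y' / R)) (y y' : X) :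
    ∑ i, q i * chg C σ σ (u i) y y' ≤ 240000 * Real.log (2 * N) * dist y y' := by
  have hl : 0 ≤ Real.log (2 * N) := Real.log_nonneg (by
    have : (1 : ℝ) ≤ N := by exact_mod_cast hN
    linarith)
  have hA : 0 ≤ 30000 * Real.log (2 * N) * dist y y' := by positivity
  have h1 := mul_le_mul_of_nonneg_left (sum_rel C (dist y σ.c)) hA
  have h2 := mul_le_mul_of_nonneg_left (sum_rel C (dist y' σ.c)) hA
  simp only [chg, mul_sum] at h1 h2 ⊢
  rw [sum_comm]
  refine le_trans (sum_le_sum fun j hj => ?_) (sum_add_distrib.trans_le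
    ((add_le_add h1 h2).trans (le_of_eq (by ring))))
  have hs := C.sc_pos j
  have a1 := mul_nonneg hA (ind_nonneg (rel C j (dist y σ.c)))
  have a2 := mul_nonneg hA (ind_nonneg (rel C j (dist y' σ.c)))
  have k1 : ∑ i, q i * (C.sc j * ind (cp C σ (u i) y j ≠ cp C σ (u i) y' j)) ≤
      30000 * Real.log (2 * N) * dist y y' := by
    have := mul_le_mul_of_nonneg_left (H (C.sc j / 5000) (σ.Z j) y y' (by positivity) (hσ.len j)
      fun hne => le_trans ?_ (C.lo _ _ hne)) hs.le
    · simp only [cp, mul_left_comm _ (C.sc j), ← mul_sum]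
      refine this.trans (le_of_eq ?_)
      field_simp; ring
    · have h4 : (4 : ℝ) ^ j ≤ 4 ^ C.J := pow_le_pow_right₀ (by norm_num) (mem_range.1 hj).le
      have := C.pos
      rw [Scale.sc, one_div, inv_mul_le_iff₀ (by positivity)]
      nlinarith [pow_pos (by norm_num : (0 : ℝ) < 4) j]
  by_cases r1 : rel C j (dist y σ.c)
  · rw [ind_pos r1]; linarith
  by_cases r2 : rel C j (dist y' σ.c)
  · rw [ind_pos r2]; linarith
  simp only [fun i => cut_rel hσ (hu i) r1 r2, ne_eq, not_true_eq_false, ind_neg not_false]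
  simpa using add_nonneg a1 a2

end NodeAux
open NodeAux

theorem node {Ω X : Type*} [Fintype Ω] [Fintype X] [MetricSpace X] {k : ℕ} (hk : 2 ≤ k)
    (P : Prior Ω X k) (C : Scale X) (S : List X → X → Prop) (z : X) {ρ : ℝ} (hρ : 0 ≤ ρ)
    (hS : ∀ h y, S h y → dist y z ≤ ρ) : ∃ c own, NodeOut P C S z ρ c own := by
  obtain ⟨nc, hnc⟩ := exists_nc P S z hρ
  obtain ⟨ι, _, q, u, q0, q1, hu, H⟩ :=
    cut_avg (17 * k) (by omega) (γ := 1 / 4 ^ C.J) (by positivity)
  obtain ⟨σ, e⟩ : ∃ σ, σ = st C S z (17 * k) nc := ⟨_, rfl⟩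
  have hI : ∀ h, Inv C (17 * k) z ρ (σ h) := fun h => e ▸ inv_st (by omega) hρ hS hnc h
  obtain ⟨i, -, hi⟩ := exists_min_image univ (fun i => P.ET fun ω t => ∑ a,
    ind (S (P.hist ω t) (P.o ω t a)) *
      chg C (σ (P.hist ω t)) (σ (P.hist ω t)) (u i) (P.o ω t a) (P.o ω (t + 1) a))
    (nonempty_of_sum_ne_zero (q1 ▸ one_ne_zero))
  have h1 := sum_le_sum fun i' (hi' : i' ∈ univ) => mul_le_mul_of_nonneg_left (hi i' hi') (q0 i')
  rw [← sum_mul, q1, one_mul] at h1
  simp only [← P.ET_mul, ← P.ET_sum] at h1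
  have h2 := h1.trans (P.ET_mono (g := fun ω t => 240000 * Real.log (2 * (17 * k : ℕ)) * ∑ a,
      ind (S (P.hist ω t) (P.o ω t a)) * dist (P.o ω t a) (P.o ω (t + 1) a)) fun ω t => by
    simp only [mul_sum]
    rw [sum_comm]
    refine sum_le_sum fun a _ => ?_
    simp only [mul_left_comm _ (ind _), ← mul_sum]
    exact mul_le_mul_of_nonneg_left
      (avg_cut (hI _) (by omega) (fun i m => (hu i m).2) H _ _) (ind_nonneg _))
  rw [P.ET_mul] at h2
  refine ⟨fun h => (σ h).c, fun h y => ownP C (cp C (σ h) (u i) y), by rw [e]; rfl, fun y => ?_,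
    fun h => (hI h).ball, fun h y e' he => ?_, fun h hv e' => ?_, fun r h hr ho => ?_, ?_⟩
  · refine Option.eq_none_iff_forall_ne_some.2 fun e' he => ?_
    have := (ownP_some.1 he).1
    rw [e] at this; cases this
  · obtain ⟨h3, h4⟩ := cp_some (fun m => (hu i m).2) (ownP_some.1 he).1
    exact ⟨dist_comm y _ ▸ h4, ((hI h).cen h3).2⟩
  · cases h with
    | nil =>
      have := P.mu_mono [] (φ := fun y => ind (S [] y ∧ ownP C (cp C (σ []) (u i) y) = some e'))
        (ψ := fun y => 6 / 7 * ind (S [] y)) fun y => by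
          rw [ind_neg]
          · exact mul_nonneg (by norm_num) (ind_nonneg _)
          · rintro ⟨-, he⟩
            have := (ownP_some.1 he).1
            rw [e] at this; cases this
      rwa [P.mu_mul] at this
    | cons r h => exact mass (fun m => (hu i m).2) (hI _) hnc (c := (σ h).c) (by rw [e]; rfl) e'
  · by_contra hc
    rw [e] at ho hc
    exact own_ne (fun m => (hu i m).1) _ hr (Ne.symm hc) ho
  · have h3 := fixed (C := C) hk (fun m => (hu i m).2) hρ hS hnc e
    have h4 := log_ge hk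
    have h5 : Real.log (2 * (17 * k : ℕ)) ≤ 7 * Real.log k := by
      have hk0 : (0 : ℝ) < k := by positivity
      have : Real.log (2 * (17 * k : ℕ)) ≤ Real.log (2 ^ 6 * k) :=
        Real.log_le_log (by positivity) (by push_cast; linarith)
      rw [Real.log_mul (by norm_num) hk0.ne', Real.log_pow] at this
      have h6 := Real.log_le_log two_pos (show (2 : ℝ) ≤ k by exact_mod_cast hk)
      push_cast at this ⊢
      linarith
    have h6 := P.mv_nonneg S
    have h7 := mul_le_mul_of_nonneg_right h5 h6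
    have h8 := mul_le_mul_of_nonneg_right h4 h6
    have h9 := mul_nonneg (by linarith : 0 ≤ Real.log k) h6
    simp only [Prior.mv] at h2 h3 h6 h7 h8 h9 ⊢
    linarith

end Vale.Agent.P304
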