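import Vale.Agent.P304.Basic

/-! One node of the embedding: state and geometry. -/

namespace Vale.Agent.P304
open Finset
open scoped Classical

namespace NodeAux
variable {X : Type*} [MetricSpace X]

theorem cap_some {R : ℝ} (hR : 0 ≤ R) {Z : List X} {u : ℕ → ℝ} (hu : ∀ m, u m ≤ 1) {y x : X}
    (h : cap R Z u y = some x) : x ∈ Z ∧ dist x y ≤ R := by
  induction Z generalizing u with
  | nil => cases h
  | cons w Z ih =>
    rw [cap] at h
    split_ifs at h with hw
    · cases h
      exact ⟨by simp, hw.trans (mul_le_of_le_one_right hR (hu 0))⟩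
    · exact (ih (fun m => hu _) h).imp_left fun h => by simp [h]

theorem cap_ne {R : ℝ} (hR : 0 ≤ R) {Z : List X} {u : ℕ → ℝ} (hu : ∀ m, 1 / 2 ≤ u m) {y x : X}
    (hx : x ∈ Z) (h : dist x y ≤ R / 2) : cap R Z u y ≠ none := by
  induction Z generalizing u with
  | nil => cases hx
  | cons w Z ih =>
    rw [cap]
    split_ifs with hw
    · simp
    · rcases List.mem_cons.1 hx with rfl | hx
      · exact absurd (h.trans (by nlinarith [hu 0])) hw
      · exact ih (fun m => hu _) hx

theorem cap_append {R : ℝ} {Z Z' : List X} {u : ℕ → ℝ} {y : X} (h : cap R Z u y ≠ none) :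
    cap R (Z ++ Z') u y = cap R Z u y := by
  induction Z generalizing u with
  | nil => exact absurd rfl h
  | cons w Z ih =>
    rw [cap] at h
    rw [List.cons_append, cap, cap]
    split_ifs at h ⊢ with hw
    exacts [rfl, ih h]

/-- deterministic coverage -/
noncomputable def cov (R : ℝ) : List X → X → ℝ
  | [], _ => 0
  | x :: Z, y => max (R / 2 - dist x y) (cov R Z y)

theorem cov_nonneg (R : ℝ) (Z : List X) (y : X) : 0 ≤ cov R Z y := by
  induction Z with
  | nil => exact le_rfl
  | cons w Z ih => exact le_max_of_le_right ih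

theorem cov_le {R : ℝ} (hR : 0 ≤ R) (Z : List X) (y : X) : cov R Z y ≤ R / 2 := by
  induction Z with
  | nil => rw [cov]; positivity
  | cons w Z ih => exact max_le (by linarith [dist_nonneg (x := w) (y := y)]) ih

theorem cov_lip (R : ℝ) (Z : List X) (y y' : X) : cov R Z y ≤ cov R Z y' + dist y y' := by
  induction Z with
  | nil => simp [cov]
  | cons w Z ih =>
    rw [cov, cov]
    refine max_le ?_ (by linarith [le_max_right (R / 2 - dist w y') (cov R Z y')])
    linarith [le_max_left (R / 2 - dist w y') (cov R Z y'), dist_triangle w y y']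

theorem cov_pos {R : ℝ} {Z : List X} {y : X} (h : 0 < cov R Z y) : ∃ x ∈ Z, dist x y < R / 2 := by
  induction Z with
  | nil => exact absurd h (lt_irrefl _)
  | cons w Z ih =>
    rcases lt_max_iff.1 h with h | h
    · exact ⟨w, by simp, by linarith⟩
    · obtain ⟨x, hx, h⟩ := ih h
      exact ⟨x, by simp [hx], h⟩

theorem cov_append (R : ℝ) (Z Z' : List X) (y : X) : cov R Z y ≤ cov R (Z ++ Z') y := by
  induction Z with
  | nil => exact cov_nonneg _ _ _
  | cons w Z ih => exact max_le_max_left _ ih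

theorem cov_mem (R : ℝ) {Z : List X} {y : X} (h : y ∈ Z) : R / 2 ≤ cov R Z y := by
  induction Z with
  | nil => cases h
  | cons w Z ih =>
    rcases List.mem_cons.1 h with rfl | h
    · exact le_max_of_le_left (by simp)
    · exact le_max_of_le_right (ih h)

variable (C : Scale X)

/-- relevant scales at distance `d` -/
def rel (j : ℕ) (d : ℝ) : Prop := C.sc j ≤ 8 * d ∧ d ≤ 8 * C.sc j

theorem le_of_sc {j j' m : ℕ} (h : C.sc j' < 4 ^ (m + 1) * C.sc j) : j' ≤ j + m := by
  by_contra hc
  have h1 : (4 : ℝ) ^ (j + (m + 1)) ≤ 4 ^ j' := pow_le_pow_right₀ (by norm_num) (by omega)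
  have := mul_le_mul_of_nonneg_left h1 C.pos.le
  simp only [Scale.sc] at h
  rw [pow_add] at this
  linarith

theorem sum_rel (d : ℝ) : ∑ j ∈ range C.J, ind (rel C j d) ≤ 4 := by
  by_cases h : ∃ j, rel C j d
  · have h0 := Nat.find_spec h
    simp only [ind, sum_boole]
    have : #{j ∈ range C.J | rel C j d} ≤ #(Icc (Nat.find h) (Nat.find h + 3)) := by
      refine card_le_card fun j hj => ?_
      have hj := (mem_filter.1 hj).2
      refine mem_Icc.2 ⟨Nat.find_min' h hj, le_of_sc C ?_⟩
      norm_num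
      linarith [hj.1, h0.2, C.sc_pos (Nat.find h)]
    rw [Nat.card_Icc] at this
    exact_mod_cast this.trans (by omega)
  · push Not at h
    simp [ind_neg (h _)]

theorem sum_le_rel {f : ℕ → ℝ} {A d : ℝ} (hA : 0 ≤ A) (h : ∀ j, f j ≤ A * ind (rel C j d)) :
    ∑ j ∈ range C.J, f j ≤ 4 * A := by
  refine (sum_le_sum fun j _ => h j).trans ?_
  rw [← mul_sum]
  nlinarith [sum_rel C d]

theorem sc_rel (j : ℕ) {d : ℝ} : C.sc j * ind (rel C j d) ≤ 8 * d * ind (rel C j d) := by
  by_cases h : rel C j d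
  · simpa [ind_pos h] using h.1
  · simp [ind_neg h]

/-- owner determined by a capture profile -/
noncomputable def ownP (κ : ℕ → Option X) : Option (Fin C.J × X) :=
  if h : ∃ e : Fin C.J × X, κ e.1 = some e.2 ∧ ∀ j < (e.1 : ℕ), κ j = none then some h.choose
  else none

variable {C}

theorem ownP_some {κ : ℕ → Option X} {e : Fin C.J × X} :
    ownP C κ = some e ↔ κ e.1 = some e.2 ∧ ∀ j < (e.1 : ℕ), κ j = none := by
  unfold ownP
  split_ifs with h
  · have := h.choose_spec
    generalize h.choose = e' at this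
    refine ⟨fun h => Option.some.inj h ▸ this, fun h' => ?_⟩
    have e1 : e'.1 = e.1 := by
      refine Fin.ext (le_antisymm (not_lt.1 fun hc => ?_) (not_lt.1 fun hc => ?_))
      · simp [this.2 _ hc] at h'
      · simp [h'.2 _ hc] at this
    have e2 := this.1
    rw [e1, h'.1] at e2
    rw [Prod.ext e1 (Option.some.inj e2).symm]
  · exact ⟨fun h => (by cases h), fun h' => absurd ⟨e, h'⟩ h⟩

theorem ownP_none {κ : ℕ → Option X} (h : ownP C κ = none) {j : ℕ} (hj : j < C.J) :
    κ j = none := by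
  by_contra hc
  have hex : ∃ j, κ j ≠ none := ⟨j, hc⟩
  obtain ⟨x, hx⟩ := Option.ne_none_iff_exists'.1 (Nat.find_spec hex)
  have : ownP C κ = some (⟨Nat.find hex, (Nat.find_min' hex hc).trans_lt hj⟩, x) :=
    ownP_some.2 ⟨hx, fun j hj => by simpa using Nat.find_min hex hj⟩
  rw [h] at this; cases this

/-- weight of an owner -/
noncomputable def wt (o : Option (Fin C.J × X)) : ℝ := o.elim 0 fun e => C.sc e.1

theorem wt_nonneg (o : Option (Fin C.J × X)) : 0 ≤ wt o := by
  cases o
  exacts [le_rfl, (C.sc_pos _).le]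

theorem sum_wt [Fintype X] (p : Prop) (o : Option (Fin C.J × X)) :
    ∑ e : Fin C.J × X, C.sc e.1 * ind (p ∧ o = some e) = ind p * wt o := by
  by_cases hp : p
  · cases o with
    | none => simp [ind, wt]
    | some e => simp [ind, wt, hp]
  · simp [ind, hp]

theorem wt_le {κ κ' : ℕ → Option X} (h' : ∀ j j', κ' j ≠ none → κ' j' ≠ none → j' ≤ j + 1)
    (hne : ownP C κ ≠ ownP C κ') :
    wt (ownP C κ) ≤ 4 * ∑ j ∈ range C.J, C.sc j * ind (κ j ≠ κ' j) := by
  have h0 : ∀ j ∈ range C.J, 0 ≤ C.sc j * ind (κ j ≠ κ' j) := fun j _ =>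
    mul_nonneg (C.sc_pos j).le (ind_nonneg _)
  have h1 : ∀ j < C.J, κ j ≠ κ' j → C.sc j ≤ ∑ j ∈ range C.J, C.sc j * ind (κ j ≠ κ' j) :=
    fun j hj hk => by simpa [ind_pos hk] using single_le_sum h0 (mem_range.2 hj)
  cases ho : ownP C κ with
  | none => exact mul_nonneg (by norm_num) (sum_nonneg h0)
  | some e =>
    obtain ⟨e1, e2⟩ := ownP_some.1 ho
    by_cases hk : κ e.1 = κ' e.1
    · have : ∃ j < (e.1 : ℕ), κ' j ≠ none := by
        by_contra hc
        push Not at hc
        exact hne (ho.trans (ownP_some.2 ⟨hk ▸ e1, hc⟩).symm)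
      obtain ⟨j, hj, hj'⟩ := this
      have h2 := h' j e.1 hj' (by simp [← hk, e1])
      have h3 := h1 j (hj.trans e.1.2) (by rw [e2 j hj]; exact hj'.symm)
      have : (e.1 : ℕ) = j + 1 := by omega
      simp only [wt, Option.elim, this, Scale.sc, pow_succ] at h3 ⊢
      linarith
    · have := h1 _ e.1.2 hk
      have := C.sc_pos e.1
      simp only [wt, Option.elim]
      linarith

theorem sum_abs_le [Fintype X] {κ κ' : ℕ → Option X}
    (h : ∀ j j', κ j ≠ none → κ j' ≠ none → j' ≤ j + 1)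
    (h' : ∀ j j', κ' j ≠ none → κ' j' ≠ none → j' ≤ j + 1) (p p' : Prop) {B : ℝ}
    (hB : wt (ownP C κ) ≤ B) (hB' : wt (ownP C κ') ≤ B) :
    ∑ e : Fin C.J × X, C.sc e.1 * |ind (p ∧ ownP C κ = some e) - ind (p' ∧ ownP C κ' = some e)|
      ≤ ind p * ind p' * (8 * ∑ j ∈ range C.J, C.sc j * ind (κ j ≠ κ' j)) +
        |ind p - ind p'| * B := by
  have h0 : 0 ≤ ∑ j ∈ range C.J, C.sc j * ind (κ j ≠ κ' j) := sum_nonneg fun j _ =>
    mul_nonneg (C.sc_pos j).le (ind_nonneg _)
  have h1 : ∑ e : Fin C.J × X, C.sc e.1 *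
      |ind (p ∧ ownP C κ = some e) - ind (p' ∧ ownP C κ' = some e)| ≤
      ind p * wt (ownP C κ) + ind p' * wt (ownP C κ') := by
    rw [← sum_wt, ← sum_wt, ← sum_add_distrib]
    refine sum_le_sum fun e _ => ?_
    rw [← mul_add]
    refine mul_le_mul_of_nonneg_left (abs_le.2 ⟨?_, ?_⟩) (C.sc_pos _).le <;>
      linarith [ind_nonneg (p ∧ ownP C κ = some e), ind_nonneg (p' ∧ ownP C κ' = some e)]
  by_cases hp : p <;> by_cases hp' : p'
  · by_cases he : ownP C κ = ownP C κ'
    · simpa [hp, hp', he, ind_pos trivial] using h0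
    · have k1 := wt_le h' he
      have k2 := wt_le h (Ne.symm he)
      simp only [ne_comm (a := κ' _)] at k2
      simp only [ind_pos hp, ind_pos hp'] at h1 ⊢
      simp only [sub_self, abs_zero]
      linarith
  all_goals simp only [ind_pos, ind_neg, hp, hp', not_false_eq_true] at h1 ⊢
  all_goals norm_num at h1 ⊢
  all_goals linarith

end NodeAux
end Vale.Agent.P304
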