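import Vale.Agent.P304.Basic

/-! Rounding at one node. -/

namespace Vale.Agent.P304
open Finset

namespace R1Aux
open scoped Classical

variable {G U : Type*} [Fintype G] [Fintype U]

def D (x y : G → U → ℤ) : ℤ := ∑ g, ∑ u, |x g u - y g u|

theorem D_tri (x y z : G → U → ℤ) : D x z ≤ D x y + D y z := by
  simp only [D, ← sum_add_distrib]
  exact sum_le_sum fun _ _ => sum_le_sum fun _ _ => abs_sub_le _ _ _

theorem err (r c : G → ℤ) (g : G) (s : ℤ) :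
    ∑ a, |r a + (if a = g then s else 0) - c a| =
      ∑ a, |r a - c a| + (|r g + s - c g| - |r g - c g|) := by
  have : ∀ a, |r a + (if a = g then s else 0) - c a| =
      |r a - c a| + if a = g then |r g + s - c g| - |r g - c g| else 0 := fun a => by
    split_ifs with h
    · rw [h]; ring
    · simp
  simp only [this, sum_add_distrib, sum_ite_eq', mem_univ, if_true]

theorem bump {lo hi : U → ℤ} {x : G → U → ℤ} (hx : ∀ g u, lo u ≤ x g u ∧ x g u ≤ hi u) (g : G)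
    (u : U) (s : ℤ) (h : lo u ≤ x g u + s ∧ x g u + s ≤ hi u) :
    ∃ y : G → U → ℤ, (∀ g u, lo u ≤ y g u ∧ y g u ≤ hi u) ∧
      (∀ a, ∑ b, y a b = ∑ b, x a b + if a = g then s else 0) ∧
      (∀ b, ∑ a, y a b = ∑ a, x a b + if b = u then s else 0) ∧ D x y = |s| ∧
      ∀ a b, a ≠ g ∨ b ≠ u → y a b = x a b := by
  refine ⟨fun a b => x a b + if a = g then (if b = u then s else 0) else 0, fun a b => ?_,
    fun a => ?_, fun b => ?_, ?_, fun a b hab => ?_⟩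
  · dsimp only
    split_ifs with h1 h2
    · rw [h1, h2]; exact h
    · simpa using hx a b
    · simpa using hx a b
  · by_cases h1 : a = g <;> simp [sum_add_distrib, h1]
  · simp [sum_add_distrib]
  · have : ∀ a b, |x a b - (x a b + if a = g then (if b = u then s else 0) else 0)| =
        if b = u then (if a = g then |s| else 0) else 0 := fun a b => by
      split_ifs <;> simp
    simp only [D, this, sum_ite_eq', mem_univ, if_true]
  · rcases hab with h1 | h1 <;> simp [h1]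

theorem move {lo hi : U → ℤ} {x : G → U → ℤ} (hx : ∀ g u, lo u ≤ x g u ∧ x g u ≤ hi u) (g : G)
    {u v : U} (huv : v ≠ u) (h1 : lo u < x g u) (h2 : x g v < hi v) :
    ∃ y : G → U → ℤ, (∀ g u, lo u ≤ y g u ∧ y g u ≤ hi u) ∧ (∀ a, ∑ b, y a b = ∑ b, x a b) ∧
      (∀ b, ∑ a, y a b = ∑ a, x a b + (if b = u then -1 else 0) + if b = v then 1 else 0) ∧
      D x y ≤ 2 ∧ ∀ a b, a ≠ g → y a b = x a b := by
  obtain ⟨y, y1, y2, y3, y4, y5⟩ := bump hx g u (-1) (by have := hx g u; omega)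
  obtain ⟨z, z1, z2, z3, z4, z5⟩ := bump y1 g v 1 (by
    have := hx g v; rw [y5 g v (Or.inr huv)]; omega)
  refine ⟨z, z1, fun a => ?_, fun b => by rw [z3, y3], ?_,
    fun a b h => by rw [z5 a b (Or.inl h), y5 a b (Or.inl h)]⟩
  · rw [z2, y2]; split_ifs <;> ring
  · have := D_tri x y z
    rw [y4, z4] at this
    simpa using this

theorem step {lo hi : U → ℤ} {ρ : G → ℤ} {Y : U → ℤ} (hρ : ∀ g g', ρ g ≤ ρ g' + 1)
    (hρ1 : ∀ g, ∑ u, lo u ≤ ρ g ∧ ρ g ≤ ∑ u, hi u)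
    (hY : ∀ u, Fintype.card G * lo u ≤ Y u ∧ Y u ≤ Fintype.card G * hi u)
    (hs : ∑ u, Y u = ∑ g, ρ g) {x : G → U → ℤ} (hx : ∀ g u, lo u ≤ x g u ∧ x g u ≤ hi u)
    (hn : ¬ ((∀ g, ∑ u, x g u = ρ g) ∧ ∀ u, ∑ g, x g u = Y u)) :
    ∃ y : G → U → ℤ, (∀ g u, lo u ≤ y g u ∧ y g u ≤ hi u) ∧ ∃ d : ℤ, 0 < d ∧ D x y ≤ d ∧
      3 * ∑ g, |∑ u, y g u - ρ g| + 2 * ∑ u, |∑ g, y g u - Y u| + d ≤
        3 * ∑ g, |∑ u, x g u - ρ g| + 2 * ∑ u, |∑ g, x g u - Y u| := by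
  by_cases hr : ∀ g, ∑ u, x g u = ρ g
  swap
  · obtain ⟨g, hg⟩ := not_forall.1 hr
    have key : ∀ (u : U) (s : ℤ), |s| = 1 → lo u ≤ x g u + s ∧ x g u + s ≤ hi u →
        |∑ u, x g u + s - ρ g| + 1 = |∑ u, x g u - ρ g| → ∃ y : G → U → ℤ,
        (∀ g u, lo u ≤ y g u ∧ y g u ≤ hi u) ∧ ∃ d : ℤ, 0 < d ∧ D x y ≤ d ∧
        3 * ∑ g, |∑ u, y g u - ρ g| + 2 * ∑ u, |∑ g, y g u - Y u| + d ≤
          3 * ∑ g, |∑ u, x g u - ρ g| + 2 * ∑ u, |∑ g, x g u - Y u| := fun u s h1 h2 h3 => by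
      obtain ⟨y, y1, y2, y3, y4, -⟩ := bump hx g u s h2
      refine ⟨y, y1, 1, one_pos, by rw [y4, h1], ?_⟩
      simp only [y2, y3]
      rw [err (fun a => ∑ b, x a b), err (fun b => ∑ a, x a b)]
      have := abs_add_le (∑ a, x a u - Y u) s
      rw [show ∑ a, x a u - Y u + s = ∑ a, x a u + s - Y u by ring] at this
      linarith
    rcases lt_or_gt_of_ne hg with h | h
    · obtain ⟨u, -, hu⟩ := exists_lt_of_sum_lt (h.trans_le (hρ1 g).2)
      refine key u 1 abs_one (by have := hx g u; omega) ?_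
      rw [abs_of_nonpos (by omega), abs_of_nonpos (by omega)]; ring
    · obtain ⟨u, -, hu⟩ := exists_lt_of_sum_lt ((hρ1 g).1.trans_lt h)
      refine key u (-1) (by simp) (by have := hx g u; omega) ?_
      rw [abs_of_nonneg (by omega), abs_of_nonneg (by omega)]; ring
  have hc : ¬ ∀ u, ∑ g, x g u = Y u := fun h => hn ⟨hr, h⟩
  have ht : ∑ u, ∑ g, x g u = ∑ u, Y u := by rw [hs, sum_comm]; exact sum_congr rfl fun g _ => hr g
  obtain ⟨u, hu⟩ : ∃ u, Y u < ∑ g, x g u := by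
    by_contra h
    push Not at h
    exact hc fun u => (sum_eq_sum_iff_of_le fun u _ => h u).1 ht u (mem_univ u)
  obtain ⟨v, hv⟩ : ∃ v, ∑ g, x g v < Y v := by
    by_contra h
    push Not at h
    exact hc fun u => ((sum_eq_sum_iff_of_le fun u _ => h u).1 ht.symm u (mem_univ u)).symm
  have huv : v ≠ u := by rintro rfl; omega
  obtain ⟨g, -, hg⟩ : ∃ g ∈ univ, lo u < x g u :=
    exists_lt_of_sum_lt (f := fun _ => lo u) (by simpa using (hY u).1.trans_lt hu)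
  obtain ⟨g', -, hg'⟩ : ∃ g ∈ univ, x g v < hi v :=
    exists_lt_of_sum_lt (g := fun _ => hi v) (by simpa using hv.trans_le (hY v).2)
  obtain ⟨y, y1, y2, y3, y4⟩ : ∃ y : G → U → ℤ, (∀ g u, lo u ≤ y g u ∧ y g u ≤ hi u) ∧
      (∀ a, ∑ b, y a b = ∑ b, x a b) ∧
      (∀ b, ∑ a, y a b = ∑ a, x a b + (if b = u then -1 else 0) + if b = v then 1 else 0) ∧
      D x y ≤ 4 := by
    by_cases c1 : x g v < hi v
    · obtain ⟨y, y1, y2, y3, y4, -⟩ := move hx g huv hg c1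
      exact ⟨y, y1, y2, y3, by omega⟩
    by_cases c2 : lo u < x g' u
    · obtain ⟨y, y1, y2, y3, y4, -⟩ := move hx g' huv c2 hg'
      exact ⟨y, y1, y2, y3, by omega⟩
    obtain ⟨w, hw⟩ : ∃ w, x g w < x g' w := by
      by_contra h
      push Not at h
      have h1 : ∑ b ∈ {u, v}, (x g b - x g' b) ≤ ∑ b, (x g b - x g' b) :=
        sum_le_sum_of_subset_of_nonneg (subset_univ _) fun b _ _ => sub_nonneg.2 (h b)
      rw [sum_pair huv.symm, sum_sub_distrib, hr, hr] at h1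
      have := hρ g g'
      omega
    have := hx g w
    have := hx g' w
    obtain ⟨y, y1, y2, y3, y4, y5⟩ := move hx g (u := u) (v := w) (by rintro rfl; omega) hg
      (by omega)
    have hgg : g' ≠ g := by rintro rfl; omega
    obtain ⟨z, z1, z2, z3, z4, -⟩ := move y1 g' (u := w) (v := v) (by rintro rfl; omega)
      (by rw [y5 _ _ hgg]; omega) (by rw [y5 _ _ hgg]; omega)
    refine ⟨z, z1, fun a => by rw [z2, y2], fun b => ?_, by have := D_tri x y z; omega⟩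
    rw [z3, y3]
    split_ifs <;> ring
  refine ⟨y, y1, 4, by norm_num, y4, ?_⟩
  simp only [y2, y3]
  rw [err (fun b => ∑ a, x a b + if b = u then -1 else 0), err (fun b => ∑ a, x a b), if_neg huv,
    abs_of_nonneg (a := ∑ a, x a u + -1 - Y u) (by omega),
    abs_of_nonneg (a := ∑ a, x a u - Y u) (by omega),
    abs_of_nonpos (a := ∑ a, x a v + 0 + 1 - Y v) (by omega),
    abs_of_nonpos (a := ∑ a, x a v + 0 - Y v) (by omega)]
  linarith

end R1Aux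

theorem round_one {G U : Type*} [Fintype G] [Fintype U] (x : G → U → ℤ) (lo hi : U → ℤ)
    (hx : ∀ g u, lo u ≤ x g u ∧ x g u ≤ hi u) (ρ : G → ℤ) (Y : U → ℤ)
    (hρ : ∀ g g', ρ g ≤ ρ g' + 1) (hρ1 : ∀ g, ∑ u, lo u ≤ ρ g ∧ ρ g ≤ ∑ u, hi u)
    (hY : ∀ u, Fintype.card G * lo u ≤ Y u ∧ Y u ≤ Fintype.card G * hi u)
    (hs : ∑ u, Y u = ∑ g, ρ g) :
    ∃ x' : G → U → ℤ, (∀ g u, lo u ≤ x' g u ∧ x' g u ≤ hi u) ∧ (∀ g, ∑ u, x' g u = ρ g) ∧
      (∀ u, ∑ g, x' g u = Y u) ∧ ∑ g, ∑ u, |x g u - x' g u| ≤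
        3 * ∑ g, |∑ u, x g u - ρ g| + 2 * ∑ u, |∑ g, x g u - Y u| := by
  have h0 : ∀ x : G → U → ℤ, 0 ≤ 3 * ∑ g, |∑ u, x g u - ρ g| + 2 * ∑ u, |∑ g, x g u - Y u| :=
    fun x => by positivity
  induction hn : (3 * ∑ g, |∑ u, x g u - ρ g| + 2 * ∑ u, |∑ g, x g u - Y u|).toNat
    using Nat.strong_induction_on generalizing x with
  | _ n ih =>
    by_cases h : (∀ g, ∑ u, x g u = ρ g) ∧ ∀ u, ∑ g, x g u = Y u
    · exact ⟨x, hx, h.1, h.2, by simpa using h0 x⟩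
    obtain ⟨y, y1, d, d0, d1, d2⟩ := R1Aux.step hρ hρ1 hY hs hx h
    obtain ⟨z, z1, z2, z3, z4⟩ := ih _ (by have := h0 y; omega) y y1 rfl
    exact ⟨z, z1, z2, z3, (R1Aux.D_tri x y z).trans (by unfold R1Aux.D at *; linarith)⟩

end Vale.Agent.P304
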