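import Vale.Agent.P304.R1

/-! Rounding on a levelled tree. -/

namespace Vale.Agent.P304
open Finset
open scoped Classical

namespace R2Aux

theorem clip {G : ℕ} (hG : 0 < G) (a : Fin G → ℤ) (ha : ∀ g g', a g ≤ a g' + 1) (Z : ℤ) :
    ∑ g, |a g - max (Z / G) (min (a g) (Z / G + 1))| ≤ |∑ g, a g - Z| := by
  have hG' : (0 : ℤ) < G := by exact_mod_cast hG
  have h1 : G * (Z / G) ≤ Z := Int.mul_ediv_self_le hG'.ne'
  have h2 : Z < G * (Z / G) + G := Int.lt_mul_ediv_self_add hG'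
  generalize Z / G = l at *
  by_cases c1 : ∃ g, l + 1 < a g
  · obtain ⟨g, hg⟩ := c1
    have : ∀ g', |a g' - max l (min (a g') (l + 1))| = a g' - (l + 1) := fun g' => by
      have := ha g g'
      rw [min_eq_right (by omega), max_eq_right (by omega), abs_of_nonneg (by omega)]
    simp only [this, sum_sub_distrib, sum_const, card_univ, Fintype.card_fin, nsmul_eq_mul]
    refine le_trans ?_ (le_abs_self _)
    linarith
  by_cases c2 : ∃ g, a g < l
  · obtain ⟨g, hg⟩ := c2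
    have : ∀ g', |a g' - max l (min (a g') (l + 1))| = l - a g' := fun g' => by
      have := ha g' g
      rw [min_eq_left (by omega), max_eq_left (by omega), abs_of_nonpos (by omega), neg_sub]
    simp only [this, sum_sub_distrib, sum_const, card_univ, Fintype.card_fin, nsmul_eq_mul]
    refine le_trans ?_ (neg_le_abs _)
    linarith
  push Not at c1 c2
  rw [sum_eq_zero fun g _ => by
    rw [min_eq_left (c1 g), max_eq_right (c2 g), sub_self, abs_zero]]
  exact abs_nonneg _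

theorem node {G : ℕ} (hG : 0 < G) {C : Type*} [Fintype C] (a : Fin G → C → ℤ)
    (t col : Fin G → ℤ) (Z : C → ℤ) (ha : ∀ u g g', a g u ≤ a g' u + 1)
    (hat : ∀ g, ∑ u, a g u ≤ t g) (hcol : ∀ g g', col g ≤ col g' + 1) (hZ0 : ∀ u, 0 ≤ Z u)
    (hZ : ∑ u, Z u ≤ ∑ g, col g) :
    ∃ m : Fin G → C → ℤ, (∀ g u, Z u / G ≤ m g u ∧ m g u ≤ Z u / G + 1) ∧
      (∀ g, ∑ u, m g u ≤ col g) ∧ (∀ u, ∑ g, m g u = Z u) ∧
      ∑ u, ∑ g, |a g u - m g u| ≤ 3 * ∑ g, |t g - col g| + 10 * ∑ u, |∑ g, a g u - Z u| +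
        2 * |∑ g, t g - ∑ g, col g| := by
  have hG' : (0 : ℤ) < G := by exact_mod_cast hG
  have h1 : ∀ u, G * (Z u / G) ≤ Z u := fun u => Int.mul_ediv_self_le hG'.ne'
  have h2 : ∀ u, Z u < G * (Z u / G) + G := fun u => Int.lt_mul_ediv_self_add hG'
  have h3 : ∀ u, 0 ≤ Z u / G := fun u => Int.ediv_nonneg (hZ0 u) hG'.le
  obtain ⟨B, B0, B1, B2, B3⟩ : ∃ B : ℤ, 0 ≤ B ∧ (∀ g, t g - ∑ u, a g u ≤ B) ∧ (∀ g, col g ≤ B) ∧
      ∑ g, col g - ∑ u, Z u ≤ B := by
    have e1 : 0 ≤ ∑ g, (t g - ∑ u, a g u) := sum_nonneg fun g _ => sub_nonneg.2 (hat g)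
    have e2 : 0 ≤ ∑ g, |col g| := sum_nonneg fun g _ => abs_nonneg _
    refine ⟨∑ g, (t g - ∑ u, a g u) + ∑ g, |col g| + (∑ g, col g - ∑ u, Z u), by omega,
      fun g => ?_, fun g => ?_, by omega⟩
    · have := single_le_sum (f := fun g => t g - ∑ u, a g u) (fun g _ => sub_nonneg.2 (hat g))
        (mem_univ g)
      omega
    · have := (le_abs_self _).trans
        (single_le_sum (f := fun g => |col g|) (fun g _ => abs_nonneg _) (mem_univ g))
      omega
  set c : Fin G → C → ℤ := fun g u => max (Z u / G) (min (a g u) (Z u / G + 1)) with hc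
  have hcl : ∀ u, ∑ g, |a g u - c g u| ≤ |∑ g, a g u - Z u| := fun u =>
    clip hG (fun g => a g u) (ha u) (Z u)
  obtain ⟨x, x1, x2, x3, x4⟩ := round_one (G := Fin G) (U := Option C)
    (fun g o => o.elim (t g - ∑ u, a g u) (c g)) (fun o => o.elim 0 fun u => Z u / G)
    (fun o => o.elim B fun u => Z u / G + 1)
    (fun g o => by
      cases o with
      | none => exact ⟨sub_nonneg.2 (hat g), B1 g⟩
      | some u => exact ⟨le_max_left _ _, max_le (by simp) (min_le_right _ _)⟩)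
    col (fun o => o.elim (∑ g, col g - ∑ u, Z u) Z) hcol
    (fun g => by
      simp only [Fintype.sum_option, Option.elim, zero_add]
      constructor
      · have e1 : G * ∑ u, Z u / G ≤ ∑ u, Z u := by
          rw [mul_sum]; exact sum_le_sum fun u _ => h1 u
        have e2 : ∑ g', col g' < ∑ _g' : Fin G, (col g + 1) :=
          sum_lt_sum (fun g' _ => hcol g' g) ⟨g, mem_univ g, by omega⟩
        rw [sum_const, card_univ, Fintype.card_fin, nsmul_eq_mul] at e2
        exact Int.lt_add_one_iff.1 (lt_of_mul_lt_mul_left ((e1.trans hZ).trans_lt e2) hG'.le)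
      · have : 0 ≤ ∑ u, (Z u / G + 1) := sum_nonneg fun u _ => by have := h3 u; omega
        have := B2 g
        omega)
    (fun o => by
      rw [Fintype.card_fin]
      cases o with
      | none =>
        simp only [Option.elim, mul_zero]
        exact ⟨sub_nonneg.2 hZ, by nlinarith⟩
      | some u =>
        simp only [Option.elim]
        exact ⟨h1 u, by have := h2 u; linarith⟩)
    (by simp [Fintype.sum_option])
  simp only [Fintype.sum_option, Option.elim] at x2 x4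
  refine ⟨fun g u => x g (some u), fun g u => x1 g (some u), fun g => ?_, fun u => x3 (some u), ?_⟩
  · have : 0 ≤ x g none := (x1 g none).1
    have := x2 g
    dsimp only
    omega
  have s1 : ∑ u, ∑ g, |a g u - c g u| ≤ ∑ u, |∑ g, a g u - Z u| := sum_le_sum fun u _ => hcl u
  have s2 : ∑ u, ∑ g, |a g u - x g (some u)| ≤ ∑ u, ∑ g, |a g u - c g u| +
      ∑ g, (|t g - ∑ u, a g u - x g none| + ∑ u, |c g u - x g (some u)|) := by
    rw [sum_comm, sum_comm (f := fun u g => |a g u - c g u|), ← sum_add_distrib]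
    refine sum_le_sum fun g _ => ?_
    have : ∑ u, |a g u - x g (some u)| ≤ ∑ u, (|a g u - c g u| + |c g u - x g (some u)|) :=
      sum_le_sum fun u _ => abs_sub_le _ _ _
    rw [sum_add_distrib] at this
    have := abs_nonneg (t g - ∑ u, a g u - x g none)
    linarith
  have s3 : ∑ g, |t g - ∑ u, a g u + ∑ u, c g u - col g| ≤
      ∑ g, |t g - col g| + ∑ u, ∑ g, |a g u - c g u| := by
    rw [sum_comm, ← sum_add_distrib]
    refine sum_le_sum fun g _ => ?_
    rw [show t g - ∑ u, a g u + ∑ u, c g u - col g = (t g - col g) - ∑ u, (a g u - c g u) by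
      rw [sum_sub_distrib]; ring]
    exact (abs_sub _ _).trans (add_le_add_right (abs_sum_le_sum_abs _ _) _)
  have s4 : |∑ g, (t g - ∑ u, a g u) - (∑ g, col g - ∑ u, Z u)| ≤
      |∑ g, t g - ∑ g, col g| + ∑ u, |∑ g, a g u - Z u| := by
    rw [show ∑ g, (t g - ∑ u, a g u) - (∑ g, col g - ∑ u, Z u) =
      (∑ g, t g - ∑ g, col g) - ∑ u, (∑ g, a g u - Z u) by
        rw [sum_sub_distrib, sum_sub_distrib, sum_comm]; ring]
    exact (abs_sub _ _).trans (add_le_add_right (abs_sum_le_sum_abs _ _) _)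
  have s5 : ∑ u, |∑ g, c g u - Z u| ≤ ∑ u, |∑ g, a g u - Z u| + ∑ u, ∑ g, |a g u - c g u| := by
    rw [← sum_add_distrib]
    refine sum_le_sum fun u _ => ?_
    rw [show ∑ g, c g u - Z u = (∑ g, a g u - Z u) - ∑ g, (a g u - c g u) by
      rw [sum_sub_distrib]; ring]
    exact (abs_sub _ _).trans (add_le_add_right (abs_sum_le_sum_abs _ _) _)
  linarith

theorem node' {H : Type*} [Fintype H] (L : LTree H) {G : ℕ} (hG : 0 < G)
    {n : Fin G → H → ℕ} {Y Y' : H → ℕ} (hn : L.Bal n Y) (hY' : L.Sup Y') (x : H)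
    (col : Fin G → ℕ) : ∃ m : H → Fin G → ℕ,
      (∑ g, col g = Y' x ∧ ∀ g g', col g ≤ col g' + 1) →
      (∀ u ∈ L.ch x, ∑ g, m u g = Y' u ∧ ∀ g g', m u g ≤ m u g' + 1) ∧
      (∀ g, ∑ u ∈ L.ch x, m u g ≤ col g) ∧
      ∑ u ∈ L.ch x, ∑ g, |(n g u : ℤ) - m u g| ≤ 3 * ∑ g, |(n g x : ℤ) - col g| +
        10 * ∑ u ∈ L.ch x, |(Y u : ℤ) - Y' u| + 2 * |(Y x : ℤ) - Y' x| := by
  by_cases h : ∑ g, col g = Y' x ∧ ∀ g g', col g ≤ col g' + 1
  swap
  · exact ⟨fun _ _ => 0, fun h' => absurd h' h⟩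
  have e1 : ∑ g, (col g : ℤ) = Y' x := by exact_mod_cast h.1
  have e2 : ∀ u, ∑ g, (n g u : ℤ) = Y u := fun u => by exact_mod_cast hn.2.1 u
  obtain ⟨m, m1, m2, m3, m4⟩ := node hG (C := L.ch x) (fun g u => n g u) (fun g => n g x)
    (fun g => col g) (fun u => Y' u) (fun u g g' => by exact_mod_cast hn.2.2 u g g')
    (fun g => by
      rw [sum_coe_sort (L.ch x) fun u => (n g u : ℤ)]; exact_mod_cast hn.1 g x)
    (fun g g' => by exact_mod_cast h.2 g g') (fun u => by positivity)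
    (by rw [sum_coe_sort (L.ch x) fun u => (Y' u : ℤ), e1]; exact_mod_cast hY' x)
  obtain ⟨m', hm⟩ : ∃ m' : H → Fin G → ℕ, ∀ (u : L.ch x) g, (m' u g : ℤ) = m g u :=
    ⟨fun u g => if hu : u ∈ L.ch x then (m g ⟨u, hu⟩).toNat else 0, fun u g => by
      dsimp only
      rw [dif_pos u.2]
      exact Int.toNat_of_nonneg (le_trans (by positivity) (m1 g u).1)⟩
  simp only [← hm, e1, e2] at m1 m2 m3 m4
  rw [sum_coe_sort (L.ch x) fun u => ∑ g, |(n g u : ℤ) - m' u g|,
    sum_coe_sort (L.ch x) fun u => |(Y u : ℤ) - Y' u|] at m4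
  refine ⟨m', fun _ => ⟨fun u hu => ⟨by exact_mod_cast m3 ⟨u, hu⟩, fun g g' => ?_⟩, fun g => ?_,
    m4⟩⟩
  · have := (m1 g ⟨u, hu⟩).2
    have := (m1 g' ⟨u, hu⟩).1
    dsimp only at *
    omega
  · have := m2 g
    rw [sum_coe_sort (L.ch x) fun u => (m' u g : ℤ)] at this
    exact_mod_cast this

/-- the recursion from the top -/
noncomputable def cols {H A : Type*} (L : LTree H) (a : A) (F : H → A → H → A) : ℕ → H → A
  | 0, _ => a
  | j + 1, x => F (L.par x) (cols L a F j (L.par x)) x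

theorem lev_sub {H : Type*} (L : LTree H) {x : H} (hx : x ≠ L.top) :
    L.lev L.top - L.lev x = L.lev L.top - L.lev (L.par x) + 1 := by
  have := L.lev_par x hx
  have := L.lev_lt x hx
  omega

theorem fib {H : Type*} [Fintype H] (L : LTree H) (f : H → ℤ) :
    ∑ x, ∑ u ∈ L.ch x, f u = ∑ u, f u - f L.top := by
  rw [← sum_erase_eq_sub (mem_univ _), ← sum_fiberwise (univ.erase L.top) L.par]
  exact sum_congr rfl fun x _ => sum_congr (by ext; simp [LTree.ch]) fun _ _ => rfl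

end R2Aux

open R2Aux in
theorem LTree.round {H : Type*} [Fintype H] (L : LTree H) {G : ℕ} (hG : 0 < G)
    {n : Fin G → H → ℕ} {Y Y' : H → ℕ} (hn : L.Bal n Y) (hY' : L.Sup Y')
    (ht : Y' L.top = Y L.top) :
    ∃ n' : Fin G → H → ℕ, L.Bal n' Y' ∧ (∀ g, n' g L.top = n g L.top) ∧
      ∑ x, (4 : ℝ) ^ L.lev x * ∑ g, |(n g x : ℝ) - n' g x| ≤
        50 * ∑ x, (4 : ℝ) ^ L.lev x * |(Y x : ℝ) - Y' x| := by
  choose F hF using node' L hG hn hY'
  obtain ⟨c, c0, c1⟩ : ∃ c : H → Fin G → ℕ, (c L.top = fun g => n g L.top) ∧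
      ∀ x, ∀ u ∈ L.ch x, c u = F x (c x) u := by
    refine ⟨fun x => cols L (fun g => n g L.top) F (L.lev L.top - L.lev x) x,
      by simp [cols], fun x u hu => ?_⟩
    obtain ⟨h1, rfl⟩ : u ≠ L.top ∧ L.par u = x := by simpa [LTree.ch] using hu
    dsimp only
    rw [lev_sub L h1, cols]
  have good : ∀ x, ∑ g, c x g = Y' x ∧ ∀ g g', c x g ≤ c x g' + 1 := by
    intro x
    induction hj : L.lev L.top - L.lev x generalizing x with
    | zero =>
      obtain rfl : x = L.top := by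
        by_contra h
        rw [lev_sub L h] at hj
        omega
      rw [c0, ht]
      exact ⟨hn.2.1 _, hn.2.2 _⟩
    | succ j ih =>
      have h : x ≠ L.top := by rintro rfl; omega
      have hx : x ∈ L.ch (L.par x) := by simp [LTree.ch, h]
      rw [c1 _ x hx]
      exact (hF _ _ (ih _ (by rw [lev_sub L h] at hj; omega))).1 x hx
  refine ⟨fun g x => c x g, ⟨fun g x => ?_, fun x => (good x).1, fun x => (good x).2⟩,
    fun g => congrFun c0 g, ?_⟩
  · exact (sum_congr rfl fun u hu => congrFun (c1 x u hu) g).le.trans ((hF _ _ (good x)).2.1 g)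
  have key : ∀ x, 4 * ∑ u ∈ L.ch x, (4 : ℤ) ^ L.lev u * ∑ g, |(n g u : ℤ) - c u g| ≤
      3 * ((4 : ℤ) ^ L.lev x * ∑ g, |(n g x : ℤ) - c x g|) +
      40 * ∑ u ∈ L.ch x, (4 : ℤ) ^ L.lev u * |(Y u : ℤ) - Y' u| +
      2 * ((4 : ℤ) ^ L.lev x * |(Y x : ℤ) - Y' x|) := by
    intro x
    have e : ∀ f : H → ℤ, 4 * ∑ u ∈ L.ch x, (4 : ℤ) ^ L.lev u * f u =
        4 ^ L.lev x * ∑ u ∈ L.ch x, f u := fun f => by
      rw [mul_sum, mul_sum]
      refine sum_congr rfl fun u hu => ?_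
      obtain ⟨h1, rfl⟩ : u ≠ L.top ∧ L.par u = x := by simpa [LTree.ch] using hu
      rw [L.lev_par u h1]; ring
    have h := mul_le_mul_of_nonneg_left (hF _ _ (good x)).2.2
      (by positivity : (0 : ℤ) ≤ 4 ^ L.lev x)
    rw [sum_congr rfl fun u hu => by rw [← c1 x u hu]] at h
    have e2 := e fun u => |(Y u : ℤ) - Y' u|
    rw [e]
    linarith
  have h := sum_le_sum fun x (_ : x ∈ univ) => key x
  simp only [sum_add_distrib, ← mul_sum, fib] at h
  have h0 : 0 ≤ ∑ x, (4 : ℤ) ^ L.lev x * |(Y x : ℤ) - Y' x| := by positivity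
  have h1 : ∑ x, (4 : ℤ) ^ L.lev x * ∑ g, |(n g x : ℤ) - c x g| ≤
      50 * ∑ x, (4 : ℤ) ^ L.lev x * |(Y x : ℤ) - Y' x| := by
    simp only [c0, ht, sub_self, abs_zero, sum_const_zero, mul_zero] at h
    linarith
  exact_mod_cast h1

end Vale.Agent.P304
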