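import Vale.Agent.P304.Basic

/-! Reduction of a finite prior on request lists to the finite metric setting. -/

namespace Vale.Agent.P304
open Finset
open scoped Classical

universe u

namespace RedAux
variable {X : Type*} [MetricSpace X] {k : ℕ}

/-- positions after the first `t` steps of a service -/
def pos : (Fin k → X) → List (X × Fin k) → ℕ → Fin k → X
  | s, [], _ => s
  | s, _ :: _, 0 => s
  | s, (r, i) :: l, t + 1 => pos (Function.update s i r) l t

/-- request number `t`, padded by the position of server `a0` -/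
def req (a0 : Fin k) : (Fin k → X) → List (X × Fin k) → ℕ → X
  | s, [], _ => s a0
  | _, (r, _) :: _, 0 => r
  | s, (r, i) :: l, t + 1 => req a0 (Function.update s i r) l t

omit [MetricSpace X] in
theorem pos_zero (s : Fin k → X) (l : List (X × Fin k)) : pos s l 0 = s := by
  cases l <;> rfl

omit [MetricSpace X] in
theorem serve (a0 : Fin k) (s : Fin k → X) (l : List (X × Fin k)) (t : ℕ) :
    ∃ a, pos s l (t + 1) a = req a0 s l t := by
  induction l generalizing s t with
  | nil => exact ⟨a0, rfl⟩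
  | cons e l ih =>
    cases t with
    | zero => exact ⟨e.2, by simp [pos, req, pos_zero]⟩
    | succ t => exact ih _ t

omit [MetricSpace X] in
theorem pos_mem (s : Fin k → X) (l : List (X × Fin k)) (t : ℕ) (a : Fin k) :
    pos s l t a ∈ Set.range s ∨ pos s l t a ∈ l.map Prod.fst := by
  induction l generalizing s t with
  | nil => exact Or.inl ⟨a, rfl⟩
  | cons e l ih =>
    cases t with
    | zero => exact Or.inl ⟨a, rfl⟩
    | succ t =>
      rcases ih (Function.update s e.2 e.1) t with ⟨b, hb⟩ | h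
      · change pos (Function.update s e.2 e.1) l t a ∈ _ ∨ pos (Function.update s e.2 e.1) l t a ∈ _
        rw [← hb, Function.update_apply]
        split_ifs
        exacts [Or.inr (by simp), Or.inl ⟨b, rfl⟩]
      · exact Or.inr (List.mem_cons_of_mem _ h)

theorem sum_update (s : Fin k → X) (i : Fin k) (r : X) :
    ∑ a, dist (s a) (Function.update s i r a) = dist (s i) r := by
  rw [sum_eq_single i (fun b _ hb => by simp [hb]) (by simp)]; simp

theorem pos_cost (s : Fin k → X) (l : List (X × Fin k)) (T : ℕ) :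
    ∑ t ∈ range T, ∑ a, dist (pos s l t a) (pos s l (t + 1) a) ≤ cost s l := by
  induction l generalizing s T with
  | nil => simp [pos, cost]
  | cons e l ih =>
    cases T with
    | zero => simpa [cost] using add_nonneg dist_nonneg (by simpa using ih _ 0)
    | succ T =>
      rw [sum_range_succ', add_comm]
      exact add_le_add (le_of_eq (by simpa [pos, pos_zero] using sum_update s e.2 e.1)) (ih _ T)

theorem lazy (π : List (X × Fin k) → X → Fin k) (Q : List X → Fin k → X) (a0 : Fin k)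
    (hs : ℕ → List X) (l : List (X × Fin k)) (s s' : Fin k → X) (h : List (X × Fin k))
    (hπ : ∀ h r, (∃ a, Q (r :: h.map Prod.fst) a = r) → Q (r :: h.map Prod.fst) (π h r) = r)
    (h0 : hs 0 = h.map Prod.fst) (h1 : ∀ t, hs (t + 1) = req a0 s' l t :: hs t)
    (h2 : ∀ t, ∃ a, Q (hs (t + 1)) a = req a0 s' l t) :
    dcost π h s (l.map Prod.fst) ≤ ∑ a, dist (s a) (Q (hs 0) a) +
      ∑ t ∈ range l.length, ∑ a, dist (Q (hs t) a) (Q (hs (t + 1)) a) := by
  induction l generalizing hs s s' h with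
  | nil => simpa [dcost] using sum_nonneg fun _ _ => dist_nonneg
  | cons e l ih =>
    have e1 : hs 1 = e.1 :: h.map Prod.fst := by rw [h1, h0]; rfl
    have e2 : Q (hs 1) (π h e.1) = e.1 := e1 ▸ hπ h e.1 (e1 ▸ h2 0)
    have := ih (fun t => hs (t + 1)) (Function.update s (π h e.1) e.1)
      (Function.update s' e.2 e.1) ((e.1, π h e.1) :: h) e1 (fun t => h1 (t + 1))
      fun t => h2 (t + 1)
    rw [List.map_cons, dcost, List.length_cons, sum_range_succ']
    have k1 : dist (s (π h e.1)) e.1 + ∑ a, dist (Function.update s (π h e.1) e.1 a) (Q (hs 1) a) ≤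
        ∑ a, dist (s a) (Q (hs 1) a) := by
      rw [← add_sum_erase _ _ (mem_univ (π h e.1)), ← add_sum_erase _ _ (mem_univ (π h e.1)), e2,
        sum_congr rfl fun a ha => by rw [Function.update_of_ne (ne_of_mem_erase ha)]]
      simp
    have k2 : ∑ a, dist (s a) (Q (hs 1) a) ≤
        ∑ a, dist (s a) (Q (hs 0) a) + ∑ a, dist (Q (hs 0) a) (Q (hs 1) a) := by
      rw [← sum_add_distrib]; exact sum_le_sum fun a _ => dist_triangle _ _ _
    simp only [zero_add] at this ⊢
    linarith

end RedAux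
open RedAux

theorem red {X : Type u} [MetricSpace X] {k : ℕ} (s : Fin k → X) (a0 : Fin k) {c : ℝ}
    (hc : 0 ≤ c) {Ω : Type u} [Fintype Ω]
    (H : ∀ (Y : Type u) [Fintype Y] [MetricSpace Y] (P : Prior Ω Y k) (z : Y),
      ∃ q : List Y → Fin k → Y, (∀ a, q [] a = z) ∧
        (∀ ω t, ∃ a, q (P.hist ω (t + 1)) a = P.r ω t) ∧
        P.ET (fun ω t => ∑ a, dist (q (P.hist ω t) a) (q (P.hist ω (t + 1)) a)) ≤
          c * (P.Opt + P.B0 z) + 1)
    (p : Ω → ℝ) (σ : Ω → List X) (hp : ∀ ω, 0 < p ω) (h1 : ∑ ω, p ω = 1) :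
    ∃ π : List (X × Fin k) → X → Fin k, ∑ ω, p ω * dcost π [] s (σ ω) ≤
      c * ∑ ω, p ω * opt s (σ ω) + ((c + 1) * ∑ a, dist (s a) (s a0) + c + 1) := by
  have : ∀ ω, ∃ l : List (X × Fin k), l.map Prod.fst = σ ω ∧ cost s l < opt s (σ ω) + 1 :=
    fun ω => by
      obtain ⟨_, ⟨l, h, rfl⟩, h'⟩ := exists_lt_of_csInf_lt
        (s := {c | ∃ l : List (X × Fin k), l.map Prod.fst = σ ω ∧ cost s l = c})
        ⟨_, (σ ω).map fun r => (r, a0), by simp [Function.comp_def], rfl⟩ (lt_add_one _)
      exact ⟨l, h, h'⟩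
  choose l hl hl' using this
  let F : Finset X := univ.image s ∪ univ.biUnion fun ω => (σ ω).toFinset
  have hF : ∀ ω t a, pos s (l ω) t a ∈ F := fun ω t a => by
    rcases pos_mem s (l ω) t a with ⟨b, hb⟩ | h
    · exact mem_union_left _ (mem_image.2 ⟨b, mem_univ _, hb⟩)
    · exact mem_union_right _ (mem_biUnion.2 ⟨ω, mem_univ _, List.mem_toFinset.2 (hl ω ▸ h)⟩)
  have hF' : ∀ ω t, req a0 s (l ω) t ∈ F := fun ω t => by
    obtain ⟨a, ha⟩ := serve a0 s (l ω) t
    exact ha ▸ hF _ _ _
  have hs : ∀ a, s a ∈ F := fun a => mem_union_left _ (mem_image_of_mem _ (mem_univ a))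
  let P : Prior Ω F k := ⟨p, hp, h1, fun ω t => ⟨_, hF' ω t⟩, fun ω t a => ⟨_, hF ω t a⟩,
    fun a => ⟨_, hs a⟩, univ.sup fun ω => (l ω).length,
    fun ω => funext fun a => Subtype.ext (congrFun (pos_zero _ _) a),
    fun ω t => (serve a0 s (l ω) t).imp fun a ha => Subtype.ext ha⟩
  obtain ⟨q, q0, q1, q2⟩ := H F P ⟨_, hs a0⟩
  let ρ : X → F := fun x => if h : x ∈ F then ⟨x, h⟩ else ⟨_, hs a0⟩
  have hρ : ∀ y : F, ρ y = y := fun y => dif_pos y.2
  let Q : List X → Fin k → X := fun h a => q (h.map ρ) a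
  have hQ : ∀ h : List F, Q (h.map (↑)) = fun a => (q h a : X) := fun h => by
    simp only [Q, List.map_map, Function.comp_def, hρ, List.map_id']
  refine ⟨fun h r => if H : ∃ a, Q (r :: h.map Prod.fst) a = r then H.choose else a0, ?_⟩
  have k1 : ∀ ω, dcost (fun h r => if H : ∃ a, Q (r :: h.map Prod.fst) a = r then H.choose else a0)
      [] s (σ ω) ≤ ∑ a, dist (s a) (s a0) +
      ∑ t ∈ range P.T, ∑ a, dist (q (P.hist ω t) a) (q (P.hist ω (t + 1)) a) := fun ω => by
    have := lazy (fun h r => if H : ∃ a, Q (r :: h.map Prod.fst) a = r then H.choose else a0) Q a0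
      (fun t => (P.hist ω t).map (↑)) (l ω) s s []
      (fun h r H => by simp only [dif_pos H]; exact H.choose_spec) rfl (fun t => rfl)
      fun t => by
        obtain ⟨a, ha⟩ := q1 ω t
        exact ⟨a, by rw [hQ]; exact congrArg Subtype.val ha⟩
    rw [hl] at this
    simp only [hQ] at this
    refine this.trans (add_le_add (le_of_eq (sum_congr rfl fun a _ => ?_))
      (sum_le_sum_of_subset_of_nonneg (range_subset_range.2
        (le_sup (f := fun ω => (l ω).length) (mem_univ ω)))
        fun _ _ _ => sum_nonneg fun _ _ => dist_nonneg))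
    rw [show P.hist ω 0 = [] from rfl, q0]
  have k2 := sum_le_sum fun ω (_ : ω ∈ univ) => mul_le_mul_of_nonneg_left (k1 ω) (hp ω).le
  simp only [mul_add, sum_add_distrib, ← sum_mul, h1, one_mul] at k2
  have k3 : P.Opt ≤ ∑ ω, p ω * opt s (σ ω) + 1 := by
    rw [← h1, ← sum_add_distrib]
    refine sum_le_sum fun ω _ => ?_
    rw [← mul_add_one]
    exact mul_le_mul_of_nonneg_left ((pos_cost s (l ω) P.T).trans (hl' ω).le) (hp ω).le
  have k4 := mul_le_mul_of_nonneg_left k3 hc
  have k5 : P.B0 ⟨_, hs a0⟩ = ∑ a, dist (s a) (s a0) := rfl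
  rw [k5] at q2
  change ∑ ω, p ω * _ ≤ _ at q2
  linarith

end Vale.Agent.P304
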