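import Mathlib

/-! The k-server problem: costs, offline optimum, randomized online policies. -/

namespace Vale.Agent.P304

variable {X : Type*} [MetricSpace X] {k : ℕ}

/-- Total movement of a service: servers start at `s`; each entry `(r, i)` moves server `i`
to the request `r`. -/
def cost : (Fin k → X) → List (X × Fin k) → ℝ
  | _, [] => 0
  | s, (r, i) :: l => dist (s i) r + cost (Function.update s i r) l

/-- Offline optimum of the request sequence `σ` from the initial positions `s`. -/
noncomputable def opt (s : Fin k → X) (σ : List X) : ℝ :=
  sInf {c | ∃ l : List (X × Fin k), l.map Prod.fst = σ ∧ cost s l = c}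

/-- A randomized online policy: given the past requests with the servers chosen for them
(most recent first) and the current request, a probability vector on the servers. -/
structure Policy (X : Type*) (k : ℕ) where
  prob : List (X × Fin k) → X → Fin k → ℝ
  nonneg : ∀ h r i, 0 ≤ prob h r i
  sum_one : ∀ h r, ∑ i, prob h r i = 1

/-- Expected movement of the policy on the remaining requests, given the past `h` and the
current positions `s`. -/
def ecost (A : Policy X k) : List (X × Fin k) → (Fin k → X) → List X → ℝ
  | _, _, [] => 0
  | h, s, r :: σ =>
    ∑ i, A.prob h r i * (dist (s i) r + ecost A ((r, i) :: h) (Function.update s i r) σ)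

end Vale.Agent.P304
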