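import Vale.Agent.P304.Basic

/-! The fractional algorithm on the tree. -/

namespace Vale.Agent.P304
open Finset
open scoped Classical

namespace TrackAux

/-- the entropy potential -/
noncomputable def Pot (z x : ℝ) : ℝ := -z * Real.log x - z + x

theorem Pot_ge {z x y : ℝ} (hz : 0 ≤ z) (hx : 0 < x) (hy : 0 < y) :
    (x - y) * (1 - z / y) ≤ Pot z x - Pot z y := by
  have h := Real.log_le_sub_one_of_pos (div_pos hx hy)
  rw [Real.log_div hx.ne' hy.ne'] at h
  have h2 := mul_le_mul_of_nonneg_left h hz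
  have : (x - y) * (1 - z / y) = x - y - z * (x / y - 1) := by field_simp
  unfold Pot; linarith

theorem Pot_clamp {z x b : ℝ} (hz : 0 < z) (hx : 0 < x) (hb : 1 ≤ b) :
    (1 - 1 / b) * |x - max (z / b) (min x (z * b))| ≤
      Pot z x - Pot z (max (z / b) (min x (z * b))) := by
  have hb0 : 0 < b := by linarith
  have h1 : z / b ≤ z * b := (div_le_self hz.le hb).trans (le_mul_of_one_le_right hz.le hb)
  rcases le_total x (z / b) with h | h
  · rw [min_eq_left (h.trans h1), max_eq_left h, abs_of_nonpos (by linarith)]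
    refine le_trans ?_ (Pot_ge hz.le hx (by positivity))
    have e : z / (z / b) = b := by field_simp
    have : 1 - 1 / b ≤ b - 1 := by
      have : 2 - b ≤ 1 / b := by rw [le_div_iff₀ hb0]; nlinarith [sq_nonneg (b - 1)]
      linarith
    rw [e]; nlinarith
  · rcases le_total x (z * b) with h' | h'
    · rw [min_eq_left h', max_eq_right h]; simp
    · rw [min_eq_right h', max_eq_right h1, abs_of_nonneg (by linarith)]
      refine le_trans (le_of_eq ?_) (Pot_ge hz.le hx (by positivity))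
      have e : z / (z * b) = 1 / b := by field_simp
      rw [e, mul_comm]

theorem Pot_low {z x w : ℝ} (hz : 0 < z) (hx : 0 < x) (hw : 1 ≤ w) (hzw : z ≤ w) :
    Pot w w ≤ Pot z x := by
  have h1 := Pot_ge hz.le hx hz
  rw [div_self hz.ne', sub_self, mul_zero] at h1
  have h2 := Real.log_le_log hz hzw
  have h3 := Real.log_nonneg hw
  unfold Pot at *
  nlinarith

theorem sum_ind_le (N s : ℕ) : ∑ n ∈ range s, ind (N ≤ n) = ((s - N : ℕ) : ℝ) := by
  induction s with
  | zero => simp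
  | succ s ih =>
    rw [sum_range_succ, ih]
    by_cases h : N ≤ s
    · rw [ind_pos h, Nat.succ_sub h]; push_cast; ring
    · rw [ind_neg h, show s + 1 - N = s - N by omega, add_zero]

theorem sum_ind_abs (N N' s : ℕ) :
    ∑ n ∈ range s, |ind (N ≤ n) - ind (N' ≤ n)| ≤ |(N : ℝ) - N'| := by
  wlog h : N ≤ N' generalizing N N'
  · rw [abs_sub_comm, sum_congr rfl fun n _ => abs_sub_comm _ _]
    exact this N' N (by omega)
  rw [sum_congr rfl fun n _ => abs_of_nonneg (sub_nonneg.2 (ind_mono h.trans)), sum_sub_distrib,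
    sum_ind_le, sum_ind_le, abs_sub_comm, abs_of_nonneg (sub_nonneg.2 (by exact_mod_cast h))]
  have : s - N + N ≤ N' + (s - N') := by omega
  have : ((s - N : ℕ) : ℝ) + N ≤ N' + ((s - N' : ℕ) : ℝ) := by exact_mod_cast this
  linarith

theorem sum_ind {ι : Type*} (A : Finset ι) (p : ι → Prop) [DecidablePred p] :
    ∑ x ∈ A, ind (p x) = #(A.filter p) := by
  rw [card_filter]; push_cast
  exact sum_congr rfl fun x _ => by unfold ind; congr

variable {Ω X : Type*} [Fintype Ω] {k : ℕ} (P : Prior Ω X k)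

/-- the number of offline servers in `S` -/
noncomputable def cnt (S : X → Prop) (t : ℕ) (ω : Ω) : ℕ := #{a | S (P.o ω t a)}

theorem cnt_cast (S : X → Prop) (t : ℕ) (ω : Ω) : (cnt P S t ω : ℝ) = ∑ a, ind (S (P.o ω t a)) := by
  simp only [cnt, ind, sum_boole]

theorem cnt_le (S : X → Prop) (t : ℕ) (ω : Ω) : cnt P S t ω ≤ k :=
  (card_filter_le _ _).trans (by simp)

theorem cnt_pos (S : X → Prop) (t : ℕ) (ω : Ω) (a : Fin k) (h : S (P.o ω t a)) :
    0 < cnt P S t ω := card_pos.2 ⟨a, mem_filter.2 ⟨mem_univ _, h⟩⟩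

/-- shifted posterior distribution function -/
noncomputable def zeta (dl : ℝ) (N : Ω → ℕ) (n : ℕ) (h : List X) : ℝ :=
  dl + P.CE h fun ω => ind (N ω ≤ n)

theorem zeta_ge (dl : ℝ) (N : Ω → ℕ) (n : ℕ) (h : List X) : dl ≤ zeta P dl N n h :=
  le_add_of_nonneg_right (P.CE_nonneg fun _ => ind_nonneg _)

theorem zeta_le (dl : ℝ) (N : Ω → ℕ) (n : ℕ) {h : List X} (H : P.Valid h) :
    zeta P dl N n h ≤ 1 + dl := by
  have := P.CE_mono (h := h) (f := fun ω => ind (N ω ≤ n)) (g := fun _ => 1)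
    fun _ _ => ind_le_one _
  rw [P.CE_const H] at this
  unfold zeta; linarith

theorem zeta_eq (dl : ℝ) {N : Ω → ℕ} {n : ℕ} {h : List X} (H : P.Valid h) (hN : ∀ ω, N ω ≤ n) :
    zeta P dl N n h = 1 + dl := by
  rw [zeta, funext fun ω => ind_pos (hN ω), P.CE_const H, add_comm]

/-- lazy tracking -/
noncomputable def xi (b x0 : ℝ) (ζ : List X → ℝ) : List X → ℝ
  | [] => x0
  | r :: h => max (ζ (r :: h) / b) (min (xi b x0 ζ h) (ζ (r :: h) * b))

theorem xi_mem {b x0 : ℝ} (hb : 1 ≤ b) {ζ : List X → ℝ} (h0 : ζ [] = x0) (h : List X)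
    (hz : 0 ≤ ζ h) : ζ h / b ≤ xi b x0 ζ h ∧ xi b x0 ζ h ≤ ζ h * b := by
  have h1 : ζ h / b ≤ ζ h := div_le_self hz hb
  have h2 : ζ h ≤ ζ h * b := le_mul_of_one_le_right hz hb
  cases h with
  | nil => rw [xi, ← h0]; exact ⟨h1, h2⟩
  | cons r h => exact ⟨le_max_left _ _, max_le (h1.trans h2) (min_le_right _ _)⟩

/-- the comparison functional -/
noncomputable def U (dl a : ℝ) (h : List X) (N : Ω → ℕ) : ℝ :=
  ∑ n ∈ range k, max 0 (1 - a * zeta P dl N n h)

theorem U_le {dl a : ℝ} (hd : 0 ≤ dl) (ha : 0 ≤ a) (h : List X) (N : Ω → ℕ) :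
    U P dl a h N ≤ k := by
  refine (sum_le_card_nsmul _ _ 1 fun n _ => max_le zero_le_one ?_).trans (by simp)
  have := mul_nonneg ha (hd.trans (zeta_ge P dl N n h))
  linarith

theorem U_le_CE {dl a : ℝ} (hd : 0 ≤ dl) (ha : 1 ≤ a) {h : List X} (H : P.Valid h) {N : Ω → ℕ}
    (hN : ∀ ω, N ω ≤ k) : U P dl a h N ≤ P.CE h fun ω => N ω := by
  have : ∀ ω, (N ω : ℝ) = ∑ n ∈ range k, (1 - ind (N ω ≤ n)) := fun ω => by
    rw [sum_sub_distrib, sum_ind_le, Nat.cast_sub (hN ω)]; simp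
  rw [funext this, P.CE_sum]
  refine sum_le_sum fun n _ => ?_
  rw [P.CE_sub, P.CE_const H]
  have h1 := zeta_le P dl N n H
  have h2 := le_mul_of_one_le_left (hd.trans (zeta_ge P dl N n h)) ha
  unfold zeta at *
  exact max_le (by linarith) (by linarith)

theorem U_super {dl a : ℝ} (hd : 0 ≤ dl) (ha : 1 ≤ a) {h : List X} (H : P.Valid h) {ι : Type*}
    (s : Finset ι) (M : ι → Ω → ℕ) {N : Ω → ℕ} (hM : ∀ ω, ∑ u ∈ s, M u ω ≤ N ω)
    (hN : ∀ ω, N ω ≤ k) : ∑ u ∈ s, U P dl a h (M u) ≤ U P dl a h N := by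
  set A := (s ×ˢ range k).filter fun p => 0 < 1 - a * zeta P dl (M p.1) p.2 h with hA
  have e1 : ∑ u ∈ s, U P dl a h (M u) = ∑ p ∈ A, (1 - a * zeta P dl (M p.1) p.2 h) := by
    rw [hA, sum_filter, sum_product]
    refine sum_congr rfl fun u _ => sum_congr rfl fun n _ => ?_
    split_ifs with h1
    · exact max_eq_right h1.le
    · exact max_eq_left (not_lt.1 h1)
  have e2 : ∀ ω, ∑ n ∈ range #A, ind (N ω ≤ n) ≤ ∑ p ∈ A, ind (M p.1 ω ≤ p.2) := by
    intro ω
    have h1 : #(A.filter fun p => ¬ M p.1 ω ≤ p.2) ≤ ∑ u ∈ s, M u ω := by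
      have : (A.filter fun p => ¬ M p.1 ω ≤ p.2) ⊆
          s.biUnion fun u => (range (M u ω)).image fun n => (u, n) := by
        intro p hp
        obtain ⟨h1, h2⟩ := mem_filter.1 hp
        exact mem_biUnion.2 ⟨p.1, (mem_product.1 (mem_filter.1 h1).1).1,
          mem_image.2 ⟨p.2, mem_range.2 (not_le.1 h2), rfl⟩⟩
      refine (card_le_card this).trans (card_biUnion_le.trans (sum_le_sum fun u _ => ?_))
      exact card_image_le.trans (card_range _).le
    have h2 := card_filter_add_card_filter_not (s := A) fun p => M p.1 ω ≤ p.2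
    have h3 := hM ω
    rw [sum_ind_le, sum_ind]
    exact_mod_cast (by omega : #A - N ω ≤ #(A.filter fun p => M p.1 ω ≤ p.2))
  have e3 := P.CE_mono (h := h) fun ω _ => e2 ω
  rw [P.CE_sum, P.CE_sum] at e3
  have e4 : ∑ p ∈ A, (1 - a * zeta P dl (M p.1) p.2 h) ≤
      ∑ n ∈ range #A, (1 - a * zeta P dl N n h) := by
    simp only [zeta, sum_sub_distrib, ← mul_sum, sum_add_distrib, sum_const, card_range]
    have := mul_le_mul_of_nonneg_left e3 (zero_le_one.trans ha)
    linarith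
  rw [e1]
  refine e4.trans ((sum_le_sum fun n _ => le_max_right 0 _).trans ?_)
  refine (sum_le_sum_of_subset_of_nonneg (range_mono (Nat.le_add_right _ k))
    fun _ _ _ => le_max_left _ _).trans (le_of_eq (sum_subset (range_mono (Nat.le_add_left k _))
      fun n _ hn => max_eq_left ?_).symm)
  rw [zeta_eq P dl H fun ω => (hN ω).trans (not_lt.1 fun h => hn (mem_range.2 h))]
  nlinarith

theorem xi_cost {dl b L : ℝ} (hd : 0 < dl) (hb : 1 ≤ b) (N : List X → Ω → ℕ) (n : ℕ)
    (h0 : ∀ ω, N [] ω ≤ n)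
    (hL : ∀ x, dl / b ≤ x → x ≤ (1 + dl) * b → |-Real.log x - 1| ≤ L) :
    (1 - 1 / b) * P.ET (fun ω t => |xi b (1 + dl) (fun h => zeta P dl (N h) n h) (P.hist ω t) -
      xi b (1 + dl) (fun h => zeta P dl (N h) n h) (P.hist ω (t + 1))|) ≤
      L * P.ET fun ω t => |ind (N (P.hist ω t) ω ≤ n) - ind (N (P.hist ω (t + 1)) ω ≤ n)| := by
  set ζ : List X → ℝ := fun h => zeta P dl (N h) n h with hζ
  set ξ := xi b (1 + dl) ζ with hξ
  have hb0 : 0 < b := by linarith
  have z1 : ∀ h, dl ≤ ζ h := fun h => zeta_ge P dl _ n h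
  have z2 : ∀ ω t, ζ (P.hist ω t) ≤ 1 + dl := fun ω t => zeta_le P dl _ n (P.valid_hist ω t)
  have hv : P.Valid [] := by
    by_contra hc
    have : IsEmpty Ω := ⟨fun ω => hc ⟨ω, 0, rfl⟩⟩
    simpa using P.one
  have z0 : ζ [] = 1 + dl := zeta_eq P dl hv h0
  have x1 : ∀ h, dl / b ≤ ξ h := fun h =>
    (div_le_div_of_nonneg_right (z1 h) hb0.le).trans (xi_mem hb z0 h (hd.le.trans (z1 h))).1
  have x0 : ∀ h, 0 < ξ h := fun h => (div_pos hd hb0).trans_le (x1 h)
  have x2 : ∀ ω t, ξ (P.hist ω t) ≤ (1 + dl) * b := fun ω t =>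
    (xi_mem hb z0 _ (hd.le.trans (z1 _))).2.trans (mul_le_mul_of_nonneg_right (z2 ω t) hb0.le)
  set g : List X → ℝ := fun h => -Real.log (ξ h) - 1 with hg
  have t1 := P.ET_tele (fun ω t => Pot (ζ (P.hist ω t)) (ξ (P.hist ω t)))
    (m := Pot (1 + dl) (1 + dl)) (M := Pot (1 + dl) (1 + dl))
    (fun ω => by rw [Prior.hist, z0]; exact le_rfl)
    (fun ω => Pot_low (hd.trans_le (z1 _)) (x0 _) (by linarith) (z2 ω _))
  have t2 := P.ET_tower fun h ω => g h.tail * ind (N h ω ≤ n)
  have t3 := P.ET_tower0 fun h ω => g h * ind (N h ω ≤ n)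
  simp only [Prior.CE_mul, Prior.hist_succ, List.tail_cons] at t2 t3
  have t4 := P.ET_mono
    (f := fun ω t => (1 - 1 / b) * |ξ (P.hist ω t) - ξ (P.hist ω (t + 1))| +
      (Pot (ζ (P.hist ω (t + 1))) (ξ (P.hist ω (t + 1))) - Pot (ζ (P.hist ω t)) (ξ (P.hist ω t))))
    (g := fun ω t => g (P.hist ω t) *
      P.CE (P.r ω t :: P.hist ω t) (fun ω' => ind (N (P.r ω t :: P.hist ω t) ω' ≤ n)) -
      g (P.hist ω t) * P.CE (P.hist ω t) fun ω' => ind (N (P.hist ω t) ω' ≤ n)) fun ω t => by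
      have := Pot_clamp (hd.trans_le (z1 (P.r ω t :: P.hist ω t))) (x0 (P.hist ω t)) hb
      have e : ξ (P.hist ω (t + 1)) = max (ζ (P.r ω t :: P.hist ω t) / b)
        (min (ξ (P.hist ω t)) (ζ (P.r ω t :: P.hist ω t) * b)) := rfl
      rw [← e] at this
      simp only [Prior.hist_succ, hζ, hg, zeta, Pot] at this ⊢
      linarith
  rw [P.ET_add, P.ET_mul, P.ET_sub (fun ω t => g _ * _), t2, t3, ← P.ET_sub] at t4
  have t5 := P.ET_mono
    (f := fun ω t => g (P.hist ω t) * ind (N (P.r ω t :: P.hist ω t) ω ≤ n) -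
      g (P.hist ω t) * ind (N (P.hist ω t) ω ≤ n))
    (g := fun ω t => L * |ind (N (P.hist ω t) ω ≤ n) - ind (N (P.hist ω (t + 1)) ω ≤ n)|)
    fun ω t => by
      rw [← mul_sub, abs_sub_comm]
      refine (le_abs_self _).trans ?_
      rw [abs_mul]
      exact mul_le_mul_of_nonneg_right (hL _ (x1 _) (x2 ω t)) (abs_nonneg _)
  rw [P.ET_mul] at t5
  linarith

theorem log_bound (hk : 2 ≤ k) {b : ℝ} (hb : 1 ≤ b) (hb2 : b ≤ 2) (x : ℝ)
    (h1 : 1 / (9 * k) / b ≤ x) (h2 : x ≤ (1 + 1 / (9 * k)) * b) :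
    |-Real.log x - 1| ≤ 6 * Real.log k := by
  have hk' : (2 : ℝ) ≤ k := by exact_mod_cast hk
  have l1 := log_ge hk
  have h3 : 1 / (32 * k : ℝ) ≤ x := by
    refine le_trans ?_ h1
    rw [div_div]
    exact one_div_le_one_div_of_le (by positivity) (by nlinarith)
  have hx : 0 < x := lt_of_lt_of_le (by positivity) h3
  have h4 : 1 / (9 * k : ℝ) ≤ 1 / 18 := one_div_le_one_div_of_le (by norm_num) (by linarith)
  have h5 : x ≤ 3 := by nlinarith
  have h6 := Real.log_le_sub_one_of_pos hx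
  have h7 := Real.log_le_log (by positivity) h3
  rw [one_div, Real.log_inv, Real.log_mul (by norm_num) (by positivity),
    show (32 : ℝ) = 2 ^ 5 by norm_num, Real.log_pow] at h7
  have h8 := Real.log_le_log two_pos hk'
  push_cast at h7
  rw [abs_le]; constructor <;> linarith

end TrackAux

open TrackAux in
theorem TreeD.frac {Ω X : Type*} [Fintype Ω] [Fintype X] [MetricSpace X] {k : ℕ} (hk : 2 ≤ k)
    {P : Prior Ω X k} {C : Scale X} {z : X} {V : Type*} [Fintype V] (T : TreeD P C z V) :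
    ∃ ν, Frac T ν := by
  have hk' : (2 : ℝ) ≤ k := by exact_mod_cast hk
  obtain ⟨dl, hdl⟩ : ∃ dl : ℝ, dl = 1 / (9 * k) := ⟨_, rfl⟩
  have hd : 0 < dl := by rw [hdl]; positivity
  obtain ⟨b, hbe⟩ : ∃ b : ℝ, b = 1 + 1 / (2 * Dep k + 1) := ⟨_, rfl⟩
  have hD : (0 : ℝ) ≤ Dep k := by positivity
  have hb : 1 ≤ b := by rw [hbe]; exact le_add_of_nonneg_right (by positivity)
  have hb0 : 0 < b := by linarith
  have hb2 : b ≤ 2 := by
    have : 1 / (2 * Dep k + 1 : ℝ) ≤ 1 := by rw [div_le_one (by positivity)]; linarith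
    linarith
  have hb3 : ∀ m, m ≤ 2 * Dep k + 1 → b ^ m ≤ 3 := fun m hm => by
    refine (pow_le_pow_right₀ hb hm).trans ?_
    have h1 : b ≤ Real.exp (1 / (2 * Dep k + 1)) := by rw [hbe, add_comm]; exact Real.add_one_le_exp _
    refine (pow_le_pow_left₀ hb0.le h1 _).trans ?_
    rw [← Real.exp_nat_mul]; push_cast
    rw [mul_one_div_cancel (by positivity)]
    linarith [Real.exp_one_lt_d9]
  have hb4 : (1 - 1 / b) * (2 * Dep k + 2) = 1 := by rw [hbe]; field_simp; ring
  set N : V → List X → Ω → ℕ := fun v h => cnt P (T.S v h) h.length with hN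
  set ξ : V → ℕ → List X → ℝ := fun v n => xi b (1 + dl) fun h => zeta P dl (N v h) n h with hξ
  set ν : V → List X → ℝ := fun v h =>
    if v = T.root then k else ∑ n ∈ range k, max 0 (1 - b ^ (2 * T.dep v) * ξ v n h) with hν
  have N0 : ∀ v, v ≠ T.root → ∀ ω n, N v [] ω ≤ n := fun v hv ω n => by
    have : N v [] ω = 0 := card_eq_zero.2 (filter_eq_empty_iff.2 fun a _ h => hv (T.S_nil v _ h))
    omega
  have xm : ∀ v, v ≠ T.root → ∀ n h, P.Valid h → zeta P dl (N v h) n h / b ≤ ξ v n h ∧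
      ξ v n h ≤ zeta P dl (N v h) n h * b := fun v hv n h H => by
    have hv0 : P.Valid [] := let ⟨ω, _, _⟩ := H; ⟨ω, 0, rfl⟩
    exact xi_mem (ζ := fun h => zeta P dl (N v h) n h) hb (zeta_eq P dl hv0 fun ω => N0 v hv ω n)
      h (hd.le.trans (zeta_ge P dl _ n h))
  have lo : ∀ v h, P.Valid h → U P dl (b ^ (2 * T.dep v + 1)) h (N v h) ≤ ν v h := by
    intro v h H
    simp only [hν]
    split_ifs with hv
    · exact U_le P hd.le (by positivity) h _
    · refine sum_le_sum fun n _ => max_le_max le_rfl (sub_le_sub_left ?_ _)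
      rw [pow_succ, mul_assoc, mul_comm b]
      exact mul_le_mul_of_nonneg_left (xm v hv n h H).2 (by positivity)
  have up : ∀ v, v ≠ T.root → ∀ h, P.Valid h →
      ν v h ≤ U P dl (b ^ (2 * T.dep (T.par v) + 1)) h (N v h) := by
    intro v hv h H
    simp only [hν, if_neg hv]
    refine sum_le_sum fun n _ => max_le_max le_rfl (sub_le_sub_left ?_ _)
    rw [T.dep_par v hv, show 2 * (T.dep (T.par v) + 1) = 2 * T.dep (T.par v) + 1 + 1 by ring,
      pow_succ _ (_ + 1), mul_assoc]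
    refine mul_le_mul_of_nonneg_left ?_ (by positivity)
    have := (xm v hv n h H).1
    rwa [div_le_iff₀' hb0] at this
  have key : ∀ v h, P.Valid h → ∑ u with u ≠ T.root ∧ T.par u = v, ν u h +
      U P dl (b ^ (2 * T.dep v + 1)) h
        (cnt P (fun y => T.S v h y ∧ ∀ u, u ≠ T.root → T.par u = v → ¬ T.S u h y) h.length) ≤
      ν v h := by
    intro v h H
    have h1 := U_super P hd.le (one_le_pow₀ (n := 2 * T.dep v + 1) hb) H
      (insertNone (univ.filter fun u => u ≠ T.root ∧ T.par u = v))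
      (fun o => o.elim
        (cnt P (fun y => T.S v h y ∧ ∀ u, u ≠ T.root → T.par u = v → ¬ T.S u h y) h.length)
        fun u => N u h) (N := N v h) (fun ω => ?_) fun ω => cnt_le P _ _ ω
    · rw [sum_insertNone] at h1
      refine le_trans ?_ (h1.trans (lo v h H))
      rw [add_comm]
      refine add_le_add le_rfl (sum_le_sum fun u hu => ?_)
      obtain ⟨h2, rfl⟩ := (mem_filter.1 hu).2
      exact up u h2 h H
    · rw [sum_insertNone, ← Nat.cast_le (α := ℝ)]
      simp only [Option.elim, hN, Nat.cast_add, Nat.cast_sum, cnt_cast]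
      rw [sum_comm, ← sum_add_distrib]
      refine sum_le_sum fun a _ => ?_
      by_cases hc : ∃ u, (u ≠ T.root ∧ T.par u = v) ∧ T.S u h (P.o ω h.length a)
      · obtain ⟨u, hu, hS⟩ := hc
        rw [ind_neg fun hh => hh.2 u hu.1 hu.2 hS, ind_pos (hu.2 ▸ T.S_par u h _ hS), zero_add,
          sum_eq_single u (fun u' hu' hne => ind_neg fun hS' => hne (T.S_disj u' u h _
            (mem_filter.1 hu').2.1 hu.1 ((mem_filter.1 hu').2.2.trans hu.2.symm) hS' hS))
            fun hh => (hh (mem_filter.2 ⟨mem_univ _, hu⟩)).elim]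
        exact ind_le_one _
      · rw [sum_eq_zero fun u hu => ind_neg fun hS => hc ⟨u, (mem_filter.1 hu).2, hS⟩, add_zero]
        exact ind_mono And.left
  refine ⟨ν, fun h => if_pos rfl, fun v h => ?_, fun v hv => ?_, fun v h H => ?_,
    fun v h H => ?_, fun v r h H hS hc => ?_, fun v hv => ?_⟩
  · simp only [hν]
    split_ifs
    · positivity
    · exact sum_nonneg fun _ _ => le_max_left _ _
  · simp only [hν, if_neg hv]
    refine sum_eq_zero fun n _ => max_eq_left ?_
    have h1 : 1 ≤ b ^ (2 * T.dep v) := one_le_pow₀ hb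
    have h2 : ξ v n [] = 1 + dl := rfl
    rw [h2]; nlinarith
  · exact le_trans (le_add_of_nonneg_right (sum_nonneg fun _ _ => le_max_left _ _)) (key v h H)
  · by_cases hv : v = T.root
    · simp only [hν, if_pos hv]
      rw [funext fun y => ind_pos (hv ▸ T.S_root h y), P.mu_const H, mul_one]
    · refine (up v hv h H).trans ((U_le_CE P hd.le (one_le_pow₀ hb) H
        fun ω => cnt_le P _ _ ω).trans (le_of_eq ?_))
      simp only [cnt_cast, Prior.mu]
  · refine le_trans (add_le_add le_rfl ?_) (key v _ H)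
    refine le_trans ?_ (single_le_sum (fun _ _ => le_max_left _ _)
      (mem_range.2 (show 0 < k by omega)))
    refine le_trans ?_ (le_max_right _ _)
    have h1 := P.CE_mono (h := r :: h) (f := fun ω => ind (cnt P (fun y => T.S v (r :: h) y ∧
      ∀ u, u ≠ T.root → T.par u = v → ¬ T.S u (r :: h) y) (r :: h).length ω ≤ 0))
      (g := fun _ => 0) fun ω e => by
        obtain ⟨a, ha⟩ := P.serve ω h.length
        have e' : P.r ω h.length = r := (List.cons.inj e).1
        refine (ind_neg (not_le.2 (cnt_pos P _ _ ω a ?_))).le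
        rw [List.length_cons, ha, e']
        exact ⟨hS, hc⟩
    rw [P.CE_const H] at h1
    have h2 := hb3 (2 * T.dep v + 1) (by have := T.dep_le v; omega)
    have h3 : 1 / (3 * k : ℝ) = 3 * dl := by rw [hdl]; field_simp; norm_num
    have h4 : 0 ≤ b ^ (2 * T.dep v + 1) := by positivity
    unfold zeta
    rw [h3]; nlinarith
  · have h1 : ∀ ω t, |ν v (P.hist ω t) - ν v (P.hist ω (t + 1))| ≤
        3 * ∑ n ∈ range k, |ξ v n (P.hist ω t) - ξ v n (P.hist ω (t + 1))| := fun ω t => by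
      simp only [hν, if_neg hv]
      rw [← sum_sub_distrib, mul_sum]
      refine (abs_sum_le_sum_abs _ _).trans (sum_le_sum fun n _ => ?_)
      rw [max_comm, max_comm 0]
      refine (abs_max_sub_max_le_abs _ _ _).trans ?_
      rw [sub_sub_sub_cancel_left, ← mul_sub, abs_mul, abs_of_nonneg (by positivity), abs_sub_comm]
      exact mul_le_mul_of_nonneg_right (hb3 _ (by have := T.dep_le v; omega)) (abs_nonneg _)
    have h2 := P.ET_mono h1
    rw [P.ET_mul, P.ET_sum] at h2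
    have h3 := sum_le_sum fun n (_ : n ∈ range k) => xi_cost P hd hb (N v) n
      (fun ω => N0 v hv ω n) (L := 6 * Real.log k) (hdl ▸ log_bound hk hb hb2)
    rw [← mul_sum, ← mul_sum, ← P.ET_sum (range k) fun n ω t => |ind _ - ind _|] at h3
    have h4 : P.ET (fun ω t => ∑ n ∈ range k,
        |ind (N v (P.hist ω t) ω ≤ n) - ind (N v (P.hist ω (t + 1)) ω ≤ n)|) ≤ P.cross (T.S v) := by
      refine P.ET_mono fun ω t => (sum_ind_abs _ _ _).trans ?_
      simp only [hN, cnt_cast, Prior.length_hist]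
      rw [← sum_sub_distrib]
      exact (abs_sum_le_sum_abs _ _).trans (sum_le_sum fun a _ => abs_sub_le _ _ _)
    have h5 := P304.dep_le hk
    have h6 := log_ge hk
    have h7 := P.cross_nonneg (T.S v)
    set E := ∑ n ∈ range k, P.ET fun ω t => |ξ v n (P.hist ω t) - ξ v n (P.hist ω (t + 1))|
    have h8 : (1 - 1 / b) * E ≤ 6 * Real.log k * P.cross (T.S v) :=
      h3.trans (mul_le_mul_of_nonneg_left h4 (by linarith))
    have h9 : E ≤ (2 * Dep k + 2) * (6 * Real.log k * P.cross (T.S v)) := by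
      have := mul_le_mul_of_nonneg_left h8 (show (0 : ℝ) ≤ 2 * Dep k + 2 by positivity)
      rwa [← mul_assoc, mul_comm _ (1 - 1 / b), hb4, one_mul] at this
    have h10 := mul_le_mul_of_nonneg_right h5
      (show 0 ≤ 6 * Real.log k * P.cross (T.S v) by positivity)
    have h11 : 0 ≤ Real.log k ^ 2 * P.cross (T.S v) := by positivity
    nlinarith

end Vale.Agent.P304
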