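import Vale.Agent.P304.Node

/-! The evolving tree. -/

namespace Vale.Agent.P304
open Finset
open scoped Classical

universe u

namespace TreeAux

variable {X : Type u} [MetricSpace X] (C : Scale X) (z : X)

def ctr : List (Fin C.J × X) → X
  | [] => z
  | e :: _ => e.2

noncomputable def rad : List (Fin C.J × X) → ℝ
  | [] => C.sc C.J
  | e :: _ => C.sc e.1 / 5000

def lvl : List (Fin C.J × X) → ℕ
  | [] => C.J
  | e :: _ => e.1

def SS (own : (List X → X → Prop) → X → ℝ → List X → X → Option (Fin C.J × X)) :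
    List (Fin C.J × X) → List X → X → Prop
  | [] => fun _ _ => True
  | e :: v => fun h y => SS own v h y ∧ own (SS own v) (ctr C z v) (rad C v) h y = some e

theorem rad_nonneg (v : List (Fin C.J × X)) : 0 ≤ rad C v := by
  cases v with
  | nil => exact (C.sc_pos _).le
  | cons e v => exact div_nonneg (C.sc_pos _).le (by norm_num)

variable {C z} {own : (List X → X → Prop) → X → ℝ → List X → X → Option (Fin C.J × X)}

theorem uniq {h : List X} {y : X} : ∀ u v : List (Fin C.J × X), u.length = v.length →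
    SS C z own u h y → SS C z own v h y → u = v
  | [], [], _, _, _ => rfl
  | [], _ :: _, e, _, _ => by simp at e
  | _ :: _, [], e, _, _ => by simp at e
  | a :: u, b :: v, e, h1, h2 => by
    obtain rfl := uniq u v (by simpa using e) h1.1 h2.1
    rw [Option.some.inj (h1.2.symm.trans h2.2)]

variable {Ω : Type*} [Fintype Ω] [Fintype X] {k : ℕ} {P : Prior Ω X k}
  {c : (List X → X → Prop) → X → ℝ → List X → X}
  (H : ∀ S z ρ, 0 ≤ ρ → (∀ h y, S h y → dist y z ≤ ρ) → NodeOut P C S z ρ (c S z ρ) (own S z ρ))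
include H

theorem out : ∀ v : List (Fin C.J × X), NodeOut P C (SS C z own v) (ctr C z v) (rad C v)
    (c (SS C z own v) (ctr C z v) (rad C v)) (own (SS C z own v) (ctr C z v) (rad C v))
  | [] => H _ _ _ (rad_nonneg C _) fun _ y _ => (C.hi y z).le
  | _ :: v => H _ _ _ (rad_nonneg C _) fun h y hy => ((out v).geo h y _ hy.2).1

theorem chain {h : List X} {y : X} : ∀ v : List (Fin C.J × X), SS C z own v h y →
    v.IsChain fun a b => a.1 < b.1
  | [], _ => List.isChain_nil
  | [_], _ => List.isChain_singleton _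
  | a :: b :: v, hy => by
    refine List.isChain_cons_cons.2 ⟨?_, chain _ hy.1⟩
    have h1 := ((out H (b :: v)).geo h y _ hy.2).2.2
    have h2 := C.sc_pos b.1
    have h3 : C.sc a.1 < C.sc b.1 := by simp only [rad] at h1; linarith
    exact (pow_lt_pow_iff_right₀ (by norm_num : (1 : ℝ) < 4)).1 (lt_of_mul_lt_mul_left h3 C.pos.le)

theorem mass {h : List X} (hv : P.Valid h) : ∀ v : List (Fin C.J × X),
    P.mu h (fun y => ind (SS C z own v h y)) ≤ (6 / 7) ^ v.length * k
  | [] => by simp [SS, ind_pos, P.mu_const hv]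
  | e :: v => by
    refine ((out H v).mass h hv e).trans ?_
    rw [List.length_cons, pow_succ', mul_assoc]
    exact mul_le_mul_of_nonneg_left (mass hv v) (by norm_num)

theorem len_le {r : X} {h : List X} (hv : P.Valid (r :: h)) (v : List (Fin C.J × X))
    (hr : SS C z own v (r :: h) r) : v.length ≤ Dep k := by
  have h1 := (P.mu_req hv (φ := fun y => ind (SS C z own v (r :: h) y))
    fun _ => ind_nonneg _).trans (mass H hv v)
  rw [ind_pos hr] at h1
  by_contra h2
  have h3 : (6 / 7 : ℝ) ^ v.length ≤ (6 / 7) ^ Dep k :=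
    pow_le_pow_of_le_one (by norm_num) (by norm_num) (by omega)
  linarith [dep_pow (k := k), mul_le_mul_of_nonneg_right h3 (Nat.cast_nonneg (α := ℝ) k)]

theorem total (hk : 2 ≤ k) (T : Finset (List (Fin C.J × X))) (h0 : [] ∈ T)
    (h1 : ∀ v ∈ T, v.tail ∈ T) (h2 : ∀ v ∈ T, v.length ≤ Dep k) :
    ∑ v ∈ T.erase [], C.sc (lvl C v) * P.cross (SS C z own v) +
      ∑ v ∈ T, P.drag (SS C z own v) (c (SS C z own v) (ctr C z v) (rad C v)) ≤
      10 ^ 10 * Real.log k ^ 2 * (P.Opt + P.B0 z) := by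
  have a0 := sum_le_sum fun v (_ : v ∈ T) => (out (z := z) H v).cst
  simp only [sum_add_distrib, ← mul_sum] at a0
  set f := fun v => C.sc (lvl C v) * P.cross (SS C z own v) with hf
  have f0 : ∀ v, 0 ≤ f v := fun v => mul_nonneg (C.sc_pos _).le (P.cross_nonneg _)
  have a1 : ∑ v ∈ T.erase [], f v ≤ ∑ v ∈ T, ∑ e : Fin C.J × X, f (e :: v) := by
    rw [← sum_product', ← sum_image (g := fun x : List (Fin C.J × X) × (Fin C.J × X) =>
      x.2 :: x.1) (fun x _ y _ e => Prod.ext (List.cons.inj e).2 (List.cons.inj e).1)]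
    refine sum_le_sum_of_subset_of_nonneg (fun v hv => ?_) fun _ _ _ => f0 _
    obtain ⟨v1, v2⟩ := mem_erase.1 hv
    obtain ⟨e, w, rfl⟩ := List.exists_cons_of_ne_nil v1
    exact mem_image.2 ⟨(w, e), mem_product.2 ⟨h1 _ v2, mem_univ _⟩, rfl⟩
  have a2 : ∑ v ∈ T, 2184 * rad C v * P.cross (SS C z own v) ≤ 1 / 2 * ∑ v ∈ T.erase [], f v := by
    rw [← add_sum_erase _ _ h0, mul_sum]
    have : P.cross (SS C z own []) = 0 := by simp [Prior.cross, SS, Prior.ET]
    rw [this, mul_zero, zero_add]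
    refine sum_le_sum fun v hv => ?_
    obtain ⟨e, w, rfl⟩ := List.exists_cons_of_ne_nil (mem_erase.1 hv).1
    have := f0 (e :: w)
    simp only [hf, rad, lvl] at this ⊢
    linarith
  have a3 : ∑ v ∈ T, ∑ a, ind (SS C z own v [] (P.s a)) * dist (P.s a) (ctr C z v) = P.B0 z := by
    rw [sum_eq_single_of_mem _ h0]
    · simp [SS, ind_pos, ctr, Prior.B0]
    · intro v _ hv
      obtain ⟨e, w, rfl⟩ := List.exists_cons_of_ne_nil hv
      refine sum_eq_zero fun a _ => ?_
      rw [ind_neg, zero_mul]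
      intro hs
      have := hs.2
      rw [(out H w).own0] at this
      cases this
  have a4 : ∑ v ∈ T, P.mv (SS C z own v) ≤ (Dep k + 1) * P.Opt := by
    simp only [Prior.mv, Prior.Opt, ← P.ET_sum, ← P.ET_mul]
    refine P.ET_mono fun ω t => ?_
    rw [sum_comm, mul_sum]
    refine sum_le_sum fun a _ => ?_
    rw [← sum_mul]
    refine mul_le_mul_of_nonneg_right ?_ dist_nonneg
    simp only [ind, sum_boole]
    have : (T.filter fun v => SS C z own v (P.hist ω t) (P.o ω t a)).card ≤
        (range (Dep k + 1)).card :=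
      card_le_card_of_injOn List.length
        (fun v hv => by simpa [Nat.lt_succ_iff] using h2 v (mem_filter.1 hv).1)
        fun u hu v hv e => uniq u v e (mem_filter.1 hu).2 (mem_filter.1 hv).2
    rw [card_range] at this
    exact_mod_cast this
  have a5 : 0 ≤ ∑ v ∈ T, P.drag (SS C z own v) (c (SS C z own v) (ctr C z v) (rad C v)) :=
    sum_nonneg fun _ _ => P.drag_nonneg _ _
  have l1 := log_ge hk
  have l2 := dep_le hk
  have o1 := P.Opt_nonneg
  have o2 := P.B0_nonneg z
  have a6 := mul_le_mul_of_nonneg_left (a4.trans (mul_le_mul_of_nonneg_right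
    (show (Dep k + 1 : ℝ) ≤ 16 * Real.log k by linarith) o1))
    (show 0 ≤ 10 ^ 8 * Real.log k by positivity)
  rw [a3] at a0
  have a7 : 1 / 4 ≤ Real.log k ^ 2 := by nlinarith
  have a8 := mul_le_mul_of_nonneg_right a7 o2
  have a9 := mul_nonneg (sq_nonneg (Real.log k)) o1
  change ∑ v ∈ T, ∑ e : Fin C.J × X, f (e :: v) + _ ≤ _ at a0
  nlinarith

end TreeAux

open TreeAux in
theorem tree {Ω : Type*} {X : Type u} [Fintype Ω] [Fintype X] [MetricSpace X] {k : ℕ}
    (hk : 2 ≤ k) (P : Prior Ω X k) (C : Scale X) (z : X) :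
    ∃ (V : Type u) (_ : Fintype V), Nonempty (TreeD P C z V) := by
  have H0 : ∀ (S : List X → X → Prop) (z : X) (ρ : ℝ), ∃ c own, 0 ≤ ρ →
      (∀ h y, S h y → dist y z ≤ ρ) → NodeOut P C S z ρ c own := fun S z ρ => by
    by_cases h : 0 ≤ ρ ∧ ∀ h y, S h y → dist y z ≤ ρ
    · obtain ⟨c, own, H⟩ := node hk P C S z h.1 h.2
      exact ⟨c, own, fun _ _ => H⟩
    · exact ⟨fun _ => z, fun _ _ => none, fun a b => absurd ⟨a, b⟩ h⟩
  choose c own H using H0
  let T : Finset (List (Fin C.J × X)) :=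
    (List.finite_length_le (Fin C.J × X) (Dep k)).toFinset.filter
      fun v => v.IsChain fun a b => a.1 < b.1
  have hT : ∀ v, v ∈ T ↔ v.length ≤ Dep k ∧ v.IsChain fun a b => a.1 < b.1 := by simp [T]
  have h0 : [] ∈ T := (hT _).2 ⟨by simp, List.isChain_nil⟩
  have h1 : ∀ v ∈ T, v.tail ∈ T := fun v hv =>
    (hT _).2 ⟨by have := ((hT _).1 hv).1; simp; omega, ((hT _).1 hv).2.tail⟩
  have hc : ∀ v : T, v ≠ ⟨[], h0⟩ → ∃ e w, v.1 = e :: w := fun v hv =>
    List.exists_cons_of_ne_nil fun e => hv (Subtype.ext e)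
  refine ⟨T, inferInstance, ⟨
    { root := ⟨[], h0⟩
      par := fun v => ⟨v.1.tail, h1 _ v.2⟩
      dep := fun v => v.1.length
      lv := fun v => lvl C v.1
      S := fun v => SS C z own v.1
      c := fun v => c (SS C z own v.1) (ctr C z v.1) (rad C v.1)
      dep_root := rfl
      dep_par := fun v hv => ?_
      dep_le := fun v => ((hT _).1 v.2).1
      lv_root := rfl
      lv_par := fun v hv => ?_
      lv_lt := fun v hv => ?_
      S_root := fun _ _ => trivial
      S_par := fun v h y hy => ?_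
      S_disj := fun u v h y hu hv e a b => ?_
      S_nil := fun v y hy => ?_
      c_nil := (out H []).c0
      geo := fun v h y hv hy => ?_
      req := fun r h hv => ?_
      cst := ?_ }⟩⟩
  · obtain ⟨e, w, a⟩ := hc v hv
    simp [a]
  · obtain ⟨e, w, a⟩ := hc v hv
    have := ((hT _).1 v.2).2
    rw [a] at this
    cases w with
    | nil => simp [a, lvl]
    | cons b w => simpa [a, lvl] using (List.isChain_cons_cons.1 this).1
  · obtain ⟨e, w, a⟩ := hc v hv
    simp [a, lvl]
  · obtain ⟨v, hv⟩ := v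
    cases v with
    | nil => exact hy
    | cons e w => exact hy.1
  · obtain ⟨e1, w1, a1⟩ := hc u hu
    obtain ⟨e2, w2, a2⟩ := hc v hv
    refine Subtype.ext (uniq _ _ ?_ a b)
    have := congrArg (fun x : T => x.1.length) e
    simpa [a1, a2] using this
  · by_contra hv
    obtain ⟨e, w, a⟩ := hc v hv
    rw [a] at hy
    have := hy.2
    rw [(out H w).own0] at this
    cases this
  · obtain ⟨e, w, a⟩ := hc v hv
    simp only [a, List.tail_cons] at hy ⊢
    have b1 := (out (z := z) H (e :: w)).ball h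
    have b2 := ((out H w).geo h y e hy.2).2.1
    have b3 := C.sc_pos e.1
    refine (dist_triangle _ e.2 _).trans ?_
    change _ ≤ C.sc e.1 / 5000 at b1
    change dist _ (ctr C z (e :: w)) + _ ≤ 5 * C.sc e.1
    linarith
  · obtain ⟨v, v1, v2⟩ := exists_max_image (T.filter fun v => SS C z own v (r :: h) r) List.length
      ⟨[], mem_filter.2 ⟨h0, trivial⟩⟩
    obtain ⟨v0, v1⟩ := mem_filter.1 v1
    have b1 : ∀ e, ¬ SS C z own (e :: v) (r :: h) r := fun e he => by
      have := v2 _ (mem_filter.2 ⟨(hT _).2 ⟨len_le H hv _ he, chain H _ he⟩, he⟩)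
      simp at this
    refine ⟨⟨v, v0⟩, v1, fun u hu e => ?_, (out H v).req r h v1 ?_⟩
    · obtain ⟨a, w, b⟩ := hc u hu
      have : w = v := by simpa [b] using congrArg Subtype.val e
      rw [b, this]
      exact b1 a
    · exact Option.eq_none_iff_forall_ne_some.2 fun e he => b1 e ⟨v1, he⟩
  · have b0 := total (z := z) H hk T h0 h1 fun v hv => ((hT _).1 hv).1
    have b1 := sum_erase_eq_sub (f := fun v : T => C.sc (lvl C v.1) * P.cross (SS C z own v.1))
      (mem_univ (⟨[], h0⟩ : T))
    rw [sum_erase_eq_sub h0, ← sum_coe_sort T, ← sum_coe_sort T, ← b1] at b0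
    refine le_of_eq_of_le ?_ b0
    refine congrArg₂ (· + ·) (sum_congr (by ext; simp) fun _ _ => rfl) rfl

end Vale.Agent.P304
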